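import Vale.Agent.P366Q.G.Sk
import Vale.Agent.P366M.Calc
import Vale.Agent.P366Y.G.Scf

/-!
# P366Q, block G: the conformal change of the conformal Laplacian
-/

open Vale.Agent.P366 Vale.Agent.P366.Stmt Vale.Agent.P366Z

noncomputable section

namespace Vale.Agent.P366M

variable {n : ℕ} {M : Type} [Mf0 n M] {g : Fld n M} {a v : M → ℝ}

/-- the conformal change of the conformal Laplacian -/
theorem Met.cl_cf (hg : Met g) (hn : 3 ≤ n) (ha : Smooth a) (h0 : ∀ y, 0 < a y) (hv : Smooth v)
    (x : M) : cl (P366M.cf a g) v x = a x ^ (-(2 * bb n) - 1) * cl g (fun y => a y * v y) x := by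
  have he := ch_mem x
  have := P366Z.Y.scf n _ _ _ (pt x) hn (hg.loc' x) (ha _ he) (fun _ => h0 _) (hv _ he)
  rw [← rep_cf, cl_pt, loc_pt] at this
  exact this.trans (congrArg _ (cl_pt g (fun y => a y * v y) x))

/-- the conformal change of the scalar curvature -/
theorem Met.scal_cf (hg : Met g) (hn : 3 ≤ n) (ha : Smooth a) (h0 : ∀ y, 0 < a y) (x : M) :
    scal (P366M.cf a g) x = a x ^ (-(2 * bb n) - 1) * cl g a x := by
  have := hg.cl_cf hn ha h0 (v := fun _ => 1) cd_const x
  simpa [cl, lap_const] using this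

/-- **SCF** -/
theorem G.scf : G.SCF := fun _ _ _ _ _ _ x hn hg ha h0 hv => hg.cl_cf hn ha h0 hv x

end Vale.Agent.P366M
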