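import Vale.Agent.P366Q.G.Sk
import Vale.Agent.P366M.End4
import Vale.Agent.P366M.Sk

/-!
# P366Q, block G: the class of competitors
-/

open MeasureTheory Metric Filter Topology Set
open scoped ContDiff ENNReal
open Vale.Agent.P366 Vale.Agent.P366.Stmt Vale.Agent.P366Z

noncomputable section

namespace Vale.Agent.P366M.G

variable {n : ℕ} {M : Type} [Mfe n M] {U : M → ℝ}

variable {B : Bg n M} {L : ℝ} {ψ ψ' m p q : M → ℝ}

theorem vol_far {R : ℝ} (hR : R0 M ≤ R) {A : Set M} (hA : MeasurableSet A)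
    (h : ∀ x ∈ A, R ≤ ‖px x‖) : volume {y : E n | R ≤ ‖y‖ ∧ yp y ∈ A} = volume A := by
  have h1 : {y : E n | R ≤ ‖y‖ ∧ yp y ∈ A} =
      {y | R ≤ ‖y‖} ∩ Subtype.val '' (yr Mfe.o ⁻¹' A) := by
    ext y
    exact ⟨fun k => ⟨k.1, ⟨y, hR.trans k.1⟩, k.2, rfl⟩, by rintro ⟨k, a, ha, rfl⟩; exact ⟨k, ha⟩⟩
  rw [← volume_px (M := M) (h1 ▸ (meas_far R).inter (measEmb_val.measurableSet_image.2
    ((measEmb_yr _).measurable hA))) fun y hy => hR.trans hy.1]
  congr 1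
  ext x
  exact ⟨fun k => by have := k.2; rwa [yp_px (by linarith [k.1])] at this,
    fun k => ⟨h x k, by rwa [yp_px (by linarith [h x k])]⟩⟩

theorem integral_far0 {R : ℝ} (hR : R0 M ≤ R) {f : E n → ℝ} (h : ∀ y, ‖y‖ < R → f y = 0) :
    ∫ x : M, f (px x) = ∫ y, f y :=
  integral_out hR (fun _ hx => h _ hx) h fun y hy => by rw [px_yp (by linarith)]

theorem exists_ext0 (hU : Smooth U) :
    ∃ v : E n → ℝ, Stmt.Smooth v ∧ ∀ y, R0 M + 1 / 2 ≤ ‖y‖ → v y = fe U y :=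
  ⟨xfj Mfe.o 0 U, hU.xfj _ _, fun _ hy => xfj_eq hy⟩

theorem Cls.max (h1 : Cls B L ψ) (h2 : Cls B L ψ') : Cls B L fun x => Max.max (ψ x) (ψ' x) where
  lip := h1.lip.max h2.lip
  mem x := ⟨le_max_of_le_left (h1.mem x).1, max_le (h1.mem x).2 (h2.mem x).2⟩
  zero x hx := by rw [h1.zero x hx, h2.zero x hx, max_self]
  one x hx := by rw [h1.one x hx, h2.one x hx, max_self]

theorem Cls.min (h1 : Cls B L ψ) (h2 : Cls B L ψ') : Cls B L fun x => Min.min (ψ x) (ψ' x) where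
  lip := h1.lip.min h2.lip
  mem x := ⟨le_min (h1.mem x).1 (h2.mem x).1, min_le_of_left_le (h1.mem x).2⟩
  zero x hx := by rw [h1.zero x hx, h2.zero x hx, min_self]
  one x hx := by rw [h1.one x hx, h2.one x hx, min_self]

theorem Cls.int_per (hB : B.Ok) (h1 : Cls B L ψ) (hU : Continuous U) :
    Integrable fun x => U x ^ (2 * gam n) * gn B.g ψ x * dens B.g x := by
  have h0 : 0 ≤ 2 * gam n := by linarith [one_lt_gam hB.dim]
  have := h1.lip.integrable_gn hB.met hB.flat h1.one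
    ((hU.rpow_const fun _ => Or.inr h0).mul hB.met.sm_dens.cont)
  refine this.congr (Eventually.of_forall fun x => ?_)
  simp only [Pi.mul_apply]; ring

theorem Cls.int_vol (hB : B.Ok) (hP : Pen B L m p q) (hψ : Continuous ψ) :
    Integrable fun x => m x * ψ x * dens B.g x :=
  integrable_of_out ((hP.smm.cont.mul hψ).mul hB.met.sm_dens.cont) (R := L + 1)
    fun y hy => by simp [hP.m0 y hy]

theorem per_nonneg (B : Bg n M) (ψ : M → ℝ) (hU : ∀ x, 0 ≤ U x) : 0 ≤ per B U ψ :=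
  integral_nonneg fun x => mul_nonneg (mul_nonneg (Real.rpow_nonneg (hU x) _) (gn_nonneg _ _ _))
    (dens_nonneg _ _)

theorem per_mono (hB : B.Ok) (h1 : Cls B L ψ) {U' : M → ℝ} (hU : Continuous U)
    (hU' : Continuous U') (h0 : ∀ x, 0 ≤ U x) (e : ∀ x, U x ≤ U' x) : per B U ψ ≤ per B U' ψ := by
  have h2 : 0 ≤ 2 * gam n := by linarith [one_lt_gam hB.dim]
  refine integral_mono (h1.int_per hB hU) (h1.int_per hB hU') fun x => ?_
  exact mul_le_mul_of_nonneg_right (mul_le_mul_of_nonneg_right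
    (Real.rpow_le_rpow (h0 x) (e x) h2) (gn_nonneg _ _ _)) (dens_nonneg _ _)

theorem St.pos {a β R s' : ℝ} (hB : B.Ok) (hS : St B U a β R s') (x : M) : 0 < U x :=
  lt_of_lt_of_le (mul_pos hS.a0 (by linarith [(hB.Ub x).1])) (hS.lo x)

theorem St.half {a β R s' : ℝ} (hB : B.Ok) (hS : St B U a β R s') (x : M) : a / 2 ≤ U x := by
  have := mul_le_mul_of_nonneg_left (hB.Ub x).1 hS.a0.le
  linarith [hS.lo x]

theorem St.le_two {a β R s' : ℝ} (hB : B.Ok) (hS : St B U a β R s') (x : M) : U x ≤ 2 :=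
  (hS.hi x).trans (hB.Ub x).2

end Vale.Agent.P366M.G
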