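import Vale.Agent.P366M.Int
import Vale.Agent.P366M.End1
import Vale.Agent.P366M.Ext
import Vale.Agent.P366Z.LinkB

/-!
# P366Q, LINK: the choice of the level, the component of the end
-/

open MeasureTheory Metric Filter Topology Set
open scoped ContDiff ENNReal Manifold
open Vale.Agent.P366 Vale.Agent.P366.Stmt Vale.Agent.P366Z
open Vale.Agent.P366Z.Lk (th th' sm_th hd_th th'_nonneg th_one th'_zero cont_th' th_ev int_th')

noncomputable section

namespace Vale.Agent.P366M.Lk

section X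

variable {X : Type} [MeasurableSpace X] {u w : X → ℝ}

/-- the approximate area of the level `t` -/
def pk (μ : Measure X) (u w : X → ℝ) (k : ℕ) (t : ℝ) : ℝ≥0∞ :=
  ∫⁻ x, ENNReal.ofReal (th' k (u x - t)) * ENNReal.ofReal (w x) ∂μ

/-- **the choice of the level** -/
theorem lev (μ : Measure X) [SFinite μ] (hu : Measurable u) (hw : Measurable w) {a b : ℝ}
    (h : a < b) {N : Set ℝ} (hN : volume N = 0) : ∃ t ∈ Ioo a b, t ∉ N ∧
      liminf (fun k => pk μ u w k t) atTop ≤
        (∫⁻ x, ENNReal.ofReal (w x) ∂μ) / ENNReal.ofReal (b - a) := by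
  have hm : ∀ k, Measurable fun q : ℝ × X =>
      ENNReal.ofReal (th' k (u q.2 - q.1)) * ENNReal.ofReal (w q.2) := fun k =>
    (((cont_th' k).measurable.comp (by fun_prop)).ennreal_ofReal).mul
      (hw.comp measurable_snd).ennreal_ofReal
  have hp : ∀ k, Measurable (pk μ u w k) := fun k => (hm k).lintegral_prod_right'
  have h1 : ∀ k, ∫⁻ t in Ioo a b, pk μ u w k t ≤ ∫⁻ x, ENNReal.ofReal (w x) ∂μ := fun k => by
    unfold pk
    rw [lintegral_lintegral_swap (hm k).aemeasurable]
    refine lintegral_mono fun x => ?_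
    have hc : Continuous fun t => th' k (u x - t) := (cont_th' k).comp (by fun_prop)
    rw [lintegral_mul_const _ hc.measurable.ennreal_ofReal]
    exact mul_le_of_le_one_left' (int_th' k _ h.le)
  have : IsFiniteMeasure (volume.restrict (Ioo a b)) := ⟨by simp⟩
  obtain ⟨t, ht, h2⟩ := exists_notMem_null_le_laverage (μ := volume.restrict (Ioo a b))
    (N := N ∪ (Ioo a b)ᶜ) (by simpa using h) (Measurable.liminf hp).aemeasurable
    (measure_union_null (le_antisymm ((Measure.restrict_le_self N).trans hN.le) zero_le)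
      (ae_restrict_mem measurableSet_Ioo))
  rw [mem_union, not_or, notMem_compl_iff] at ht
  refine ⟨t, ht.2, ht.1, h2.trans ?_⟩
  rw [setLAverage_eq, Real.volume_Ioo]
  refine ENNReal.div_le_div_right ((lintegral_liminf_le hp).trans ?_) _
  exact liminf_le_of_frequently_le' (.of_forall h1)

end X

section L0

variable {n : ℕ} {M : Type} [Mf0 n M] {g : Fld n M} {u φ : M → ℝ} {K : Set M} {t : ℝ}
  {Z : Fin n → M → ℝ} {e : Ch n M} {x : M} {y : E n}

theorem dv_zero (hK : IsCompact K) (h : ∀ x ∉ K, ∀ i, Z i x = 0) (hx : x ∉ K) : dv g Z x = 0 := by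
  rw [dv_congr (Y := fun i y => 0 * Z i y) fun i => ?_, dv_const_mul, zero_mul]
  filter_upwards [hK.isClosed.isOpen_compl.mem_nhds hx] with z hz
  rw [h z hz, zero_mul]

theorem pd_ne_loc (he : e ∈ At M) (hu : DAt u (e.symm y)) (h : ∃ i, pd i u (e.symm y) ≠ 0) :
    ∃ i, Stmt.pd i (loc e u) y ≠ 0 := by
  by_contra! k
  obtain ⟨i, hi⟩ := h
  simp only [pd_rep he hu] at k
  exact hi (congrFun (Matrix.eq_zero_of_mulVec_eq_zero
    (by rw [Matrix.det_transpose]; exact (J_unit he y).ne_zero)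
    ((repC_eq e (fun j => pd j u) y).symm.trans (funext k))) i)

/-- the set `{t ≤ u}` is locally connected for a regular value `t` -/
theorem loc_conn (hu : Smooth u) (hr : ∀ x, u x = t → ∃ i, pd i u x ≠ 0) (hx : t ≤ u x) :
    ∀ᶠ y in 𝓝 x, t ≤ u y →
      connectedComponentIn {x | t ≤ u x} x = connectedComponentIn {x | t ≤ u x} y := by
  have he := ch_mem x
  refine ev_pt.2 ((P366Z.Lk.loc (hu _ he) (fun y hy => pd_ne_loc he (hu.diff _) (hr _ hy))
    (x := pt x) (by rwa [loc_pt])).mono fun y hy k => connectedComponentIn_eq ?_)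
  refine ((isPreconnected_connectedComponentIn (F := {z | t ≤ loc (ch x) u z}) (x := pt x)).image _
    (cont_symm he).continuousOn).subset_connectedComponentIn
    ⟨pt x, mem_connectedComponentIn (by rwa [mem_ofPred_eq, loc_pt]), symm_pt x⟩ ?_
    ⟨y, by rw [hy k]; exact mem_connectedComponentIn k, rfl⟩
  rintro _ ⟨z, hz, rfl⟩
  exact connectedComponentIn_subset {z | t ≤ loc (ch x) u z} _ hz

end L0

section L1

variable {n : ℕ} {M : Type} [Mf n M] {g : Fld n M} {u w φ : M → ℝ} {K : Set M} {t : ℝ}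
  {Z : Fin n → M → ℝ}

theorem int_dv (hg : Met g) (hφ : Continuous φ) (hZ : CV 1 Z) (hK : IsCompact K)
    (h : ∀ x ∉ K, ∀ i, Z i x = 0) : Integrable fun x => φ x * dv g Z x * dens g x :=
  ((hφ.mul (hg.cont_dv hZ)).mul hg.sm_dens.cont).integrable_of_hasCompactSupport
    (HasCompactSupport.intro hK fun x hx => by simp [dv_zero hK h hx])

theorem int_dot (hg : Met g) (hφ : CD 1 φ) (hZ : CV 1 Z) (hK : IsCompact K)
    (h : ∀ x ∉ K, ∀ i, Z i x = 0) : Integrable fun x => (∑ i, pd i φ x * Z i x) * dens g x :=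
  ((CC.dot (hφ.cc_pd (k := 0) (by simp)) (hZ.of_le zero_le_one)).continuous.mul
    hg.sm_dens.cont).integrable_of_hasCompactSupport
    (HasCompactSupport.intro hK fun x hx => by simp [h x hx])

/-- the divergence theorem for a vector field with compact support -/
theorem ibp_dv (hg : Met g) (hφ : CD 1 φ) (hZ : CV 1 Z) (hK : IsCompact K)
    (h : ∀ x ∉ K, ∀ i, Z i x = 0) :
    ∫ x, φ x * dv g Z x * dens g x = -∫ x, (∑ i, pd i φ x * Z i x) * dens g x := by
  have := hg.integral_dv (CV.smul hφ hZ) hK fun x hx i => by rw [h x hx, mul_zero]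
  simp only [hg.dv_smul (hφ.differentiable one_ne_zero _) (hZ.dv one_ne_zero _), add_mul] at this
  rw [integral_add (int_dv hg hφ.continuous hZ hK h) (int_dot hg hφ hZ hK h)] at this
  linarith

/-- **the area of a level** -/
theorem ibp_lev (hg : Met g) (hu : Smooth u) (hZ : CV 1 Z) (hK : IsCompact K)
    (h : ∀ x ∉ K, ∀ i, Z i x = 0) (h1 : ∀ x, -(∑ i, pd i u x * Z i x) * dens g x ≤ w x) :
    ENNReal.ofReal (∫ x in {x | t ≤ u x}, dv g Z x * dens g x) ≤
      liminf (fun k => pk volume u w k t) atTop := by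
  have hf : ∀ k, Smooth fun x => th k (u x - t) := fun k => (sm_th k).compM (CD.sub hu cd_const)
  have hd : ∀ k i x, pd i (fun x => th k (u x - t)) x = th' k (u x - t) * pd i u x := fun k i x => by
    rw [pd_comp (f := fun x => u x - t) (hd_th k _) ((hu.diff x).sub_const t), pd_sub_const]
  have i3 : Integrable fun x => dv g Z x * dens g x := by
    simpa using int_dv (φ := fun _ => 1) hg continuous_const hZ hK h
  have e2 : ∀ k, ENNReal.ofReal (∫ x, th k (u x - t) * dv g Z x * dens g x) ≤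
      pk volume u w k t := by
    intro k
    have i4 : Integrable fun x => -((∑ i, pd i (fun x => th k (u x - t)) x * Z i x) * dens g x) :=
      (int_dot hg (hf k).one hZ hK h).neg
    rw [ibp_dv hg (hf k).one hZ hK h, ← integral_neg,
      integral_eq_lintegral_pos_part_sub_lintegral_neg_part i4]
    refine (ENNReal.ofReal_le_ofReal (sub_le_self _ ENNReal.toReal_nonneg)).trans
      (ENNReal.ofReal_toReal_le.trans (lintegral_mono fun x => ?_))
    have e3 : -((∑ i, pd i (fun x => th k (u x - t)) x * Z i x) * dens g x) =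
        th' k (u x - t) * (-(∑ i, pd i u x * Z i x) * dens g x) := by
      simp only [hd, mul_assoc, ← Finset.mul_sum]
      ring
    rw [e3, ← ENNReal.ofReal_mul (th'_nonneg k _)]
    exact ENNReal.ofReal_le_ofReal (mul_le_mul_of_nonneg_left (h1 x) (th'_nonneg k _))
  have hA : MeasurableSet {x | t ≤ u x} := (isClosed_le continuous_const hu.cont).measurableSet
  have e4 : Tendsto (fun k => ∫ x, th k (u x - t) * dv g Z x * dens g x) atTop
      (𝓝 (∫ x in {x | t ≤ u x}, dv g Z x * dens g x)) := by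
    rw [← integral_indicator hA]
    refine tendsto_integral_of_dominated_convergence _ (fun k =>
      (int_dv hg (hf k).cont hZ hK h).1) i3.norm (fun k => .of_forall fun x => ?_)
      (.of_forall fun x => ?_)
    · rw [mul_assoc, norm_mul]
      refine mul_le_of_le_one_left (norm_nonneg _) ?_
      exact (abs_of_nonneg (Real.smoothTransition.nonneg _)).trans_le
        (Real.smoothTransition.le_one _)
    · by_cases hx : t ≤ u x
      · rw [indicator_of_mem (show x ∈ {x | t ≤ u x} from hx)]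
        simp only [th_one _ (sub_nonneg.2 hx), one_mul, tendsto_const_nhds]
      · rw [indicator_of_notMem (show x ∉ {x | t ≤ u x} from hx)]
        exact tendsto_const_nhds.congr' ((th_ev (sub_neg.2 (not_le.1 hx))).mono fun k hk => by
          simp only [hk, zero_mul])
  rw [← (ENNReal.tendsto_ofReal e4).liminf_eq]
  exact liminf_le_liminf (.of_forall e2)

end L1

variable {n : ℕ} {M : Type} [Mfe n M] {u : M → ℝ} {t : ℝ}

theorem ext_conn (hn : 2 ≤ n) {L : ℝ} (hL : R0 M ≤ L) : IsConnected {x : M | L < ‖px x‖} := by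
  have h := (P366Z.Lk.ext_conn hn (L := L) (by linarith [R0_ge M])).image (yp : E n → M)
    fun y hy => (tendsto_ye_nhds (hL.trans (le_of_lt hy))).mono_left nhdsWithin_le_nhds
  refine (congrArg IsConnected (Subset.antisymm ?_ fun x hx => ?_)).mp h
  · rintro _ ⟨y, hy, rfl⟩
    rwa [mem_ofPred_eq, px_yp (by linarith [show L < ‖y‖ from hy])]
  · exact ⟨px x, hx, yp_px (by linarith [show L < ‖px x‖ from hx])⟩

/-- **the component of the end** -/
theorem comp (hn : 2 ≤ n) (hu : Smooth u) (hr : ∀ x, u x = t → ∃ i, pd i u x ≠ 0) {L C : ℝ}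
    (h1 : ∀ x, L < ‖px x‖ → t < u x) (h2 : ∀ x, u x - t < C) {Q : Set M}
    (hQ : IsClosed Q) (h3 : ∀ x ∈ Q, u x < t) : ∃ β G : M → ℝ, Smooth β ∧ IsExt G ∧
      (∀ x, β x ∈ Icc (0 : ℝ) 1) ∧ (∀ x ∈ Q, β x = 1) ∧ (∀ x, 0 ≤ G x → t ≤ u x) ∧
      (∀ x, t ≤ u x → (∀ i, pd i β x = 0) ∧ β x = if 0 ≤ G x then 0 else 1) ∧
      G = fun x => u x - t - C * β x := by
  obtain ⟨⟨x₀, hx₀⟩, hO⟩ := ext_conn (M := M) hn (le_max_right L _)
  replace h1 : ∀ x, max L (R0 M) < ‖px x‖ → t < u x := fun x hx => h1 x ((le_max_left _ _).trans_lt hx)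
  set A := {x | t ≤ u x} with hA
  set A₀ := connectedComponentIn A x₀ with hA₀
  have hs : A₀ ⊆ A := connectedComponentIn_subset _ _
  have hO' : {x : M | max L (R0 M) < ‖px x‖} ⊆ A₀ :=
    hO.subset_connectedComponentIn hx₀ fun x hx => (h1 x hx).le
  have hout : ∀ x ∉ A, ∀ᶠ y in 𝓝 x, y ∉ A := fun x hx =>
    (isClosed_le continuous_const hu.cont).isOpen_compl.mem_nhds hx
  have c0 : IsClosed A₀ := isOpen_compl_iff.1 (isOpen_iff_mem_nhds.2 fun x hx => by
    by_cases h : x ∈ A
    · filter_upwards [loc_conn hu hr h] with y hy k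
      refine hx ?_
      rw [hA₀, connectedComponentIn_eq k, ← hy (hs k)]
      exact mem_connectedComponentIn h
    · exact (hout x h).mono fun y hy k => hy (hs k))
  have c1 : IsClosed (A \ A₀) := isOpen_compl_iff.1 (isOpen_iff_mem_nhds.2 fun x hx => by
    by_cases h : x ∈ A
    · have h0 : x ∈ A₀ := by_contra fun k => hx ⟨h, k⟩
      filter_upwards [loc_conn hu hr h] with y hy k
      refine k.2 ?_
      rw [hA₀, connectedComponentIn_eq h0, hy k.1]
      exact mem_connectedComponentIn k.1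
    · exact (hout x h).mono fun y hy k => hy k.1)
  have := P366N.isManifold (n := n) (M := M)
  obtain ⟨β, b0, b1, b2⟩ := exists_contMDiffMap_zero_one_of_isClosed (n := ⊤) 𝓘(ℝ, E n) c0
    (c1.union hQ) (disjoint_left.2 fun x hx k => k.elim (fun k => k.2 hx) fun k =>
      (h3 x k).not_ge (hs hx))
  have hβ : Smooth β := P366N.cd_of_contMDiff β.contMDiff
  have hC : 0 < C := by linarith [h1 x₀ hx₀, h2 x₀]
  have hG : ∀ x, 0 ≤ u x - t - C * β x ↔ x ∈ A₀ := fun x => by
    refine ⟨fun h => by_contra fun k => ?_, fun h => ?_⟩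
    · have k1 : x ∈ A := by
        show t ≤ u x
        linarith [mul_nonneg hC.le (b2 x).1]
      rw [b1 (Or.inl ⟨k1, k⟩), Pi.one_apply] at h
      linarith [h2 x]
    · rw [b0 h, Pi.zero_apply, mul_zero, sub_zero, sub_nonneg]
      exact hs h
  have hd : ∀ x ∈ A, ∀ i, pd i β x = 0 := fun x hx i => by
    by_cases h : x ∈ A₀
    · exact pd_of_isLocalMin (.of_forall fun y => (b0 h).trans_le (b2 y).1) i
    · exact pd_of_isLocalMax (.of_forall fun y => (b2 y).2.trans (b1 (Or.inl ⟨hx, h⟩)).ge) i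
  refine ⟨β, fun x => u x - t - C * β x, hβ, ⟨CD.sub (CD.sub hu cd_const)
    (CD.mul cd_const hβ), fun x hx => ?_, ?_, max L (R0 M), fun x hx => ?_⟩, b2,
    fun x hx => b1 (Or.inr hx), fun x hx => hs ((hG x).1 hx), fun x hx => ⟨hd x hx, ?_⟩, rfl⟩
  · have h0 := (hG x).1 hx.ge
    replace hx : u x - t - C * β x = 0 := hx
    rw [b0 h0, Pi.zero_apply, mul_zero, sub_zero, sub_eq_zero] at hx
    obtain ⟨i, hi⟩ := hr x hx
    refine ⟨i, ?_⟩
    rwa [pd_sub ((hu.diff x).sub_const t) ((hβ.diff x).const_mul C), pd_const_mul, hd x (hs h0),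
      mul_zero, sub_zero, pd_sub_const]
  · rw [show {x | 0 ≤ u x - t - C * β x} = A₀ from Set.ext hG]
    exact isConnected_connectedComponentIn_iff.2 (h1 x₀ hx₀).le
  · show 0 < u x - t - C * β x
    rw [b0 (hO' hx), Pi.zero_apply, mul_zero, sub_zero, sub_pos]
    exact h1 x hx
  · split_ifs with h
    · exact b0 ((hG x).1 h)
    · exact b1 (Or.inl ⟨hx, fun k => h ((hG x).2 k)⟩)

end Vale.Agent.P366M.Lk
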