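import Vale.Agent.P366Q.G.Int
import Vale.Agent.P366M.SkE

/-!
# P366Q, block G: the rows FC, UPD, HLOW
-/

open MeasureTheory Metric Filter Topology Set
open scoped ContDiff ENNReal
open Vale.Agent.P366 Vale.Agent.P366.Stmt Vale.Agent.P366Z
open Real (smoothTransition)

noncomputable section

namespace Vale.Agent.P366M.G

namespace UpdH

theorem ex_fc {η' : ℝ} (h : 0 < η') : ∃ η'' f, Fc η' η'' f := by
  set φ : ℝ → ℝ := fun t => smoothTransition ((t - η') / η') with hφ
  have s1 : ContDiff ℝ ∞ φ :=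
    Real.smoothTransition.contDiff.comp ((contDiff_id.sub contDiff_const).div_const _)
  have i1 : ∀ a b, IntervalIntegrable φ volume a b := s1.continuous.intervalIntegrable
  have d1 : ∀ t, HasDerivAt (fun t => ∫ s in η'..t, φ s) (φ t) t := fun t =>
    (s1.continuous.integral_hasStrictDerivAt η' t).hasDerivAt
  have e1 : deriv (fun t => ∫ s in η'..t, φ s) = φ := funext fun t => (d1 t).deriv
  have m1 : Monotone φ := fun s t k =>
    Real.smoothTransition.monotone (div_le_div_of_nonneg_right (sub_le_sub_right k _) h.le)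
  have b1 : 0 ≤ ∫ s in η'..2 * η', φ s := intervalIntegral.integral_nonneg (by linarith)
    fun _ _ => Real.smoothTransition.nonneg _
  have b2 : ∫ s in η'..2 * η', φ s ≤ ∫ _ in η'..2 * η', (1 : ℝ) :=
    intervalIntegral.integral_mono_on (by linarith) (i1 _ _) intervalIntegrable_const
      fun _ _ => Real.smoothTransition.le_one _
  rw [intervalIntegral.integral_const, smul_eq_mul, mul_one] at b2
  refine ⟨2 * η' - ∫ s in η'..2 * η', φ s, fun t => ∫ s in η'..t, φ s,
    contDiff_infty_iff_deriv.2 ⟨fun t => (d1 t).differentiableAt, by rwa [e1]⟩,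
    ⟨by linarith, by linarith⟩, fun t => ?_, fun t => ?_, fun t ht => ?_, fun t ht => ?_⟩
  · rw [e1]
    exact ⟨Real.smoothTransition.nonneg _, Real.smoothTransition.le_one _⟩
  · rw [e1]
    exact m1.deriv_nonneg
  · rw [intervalIntegral.integral_congr (g := fun _ => 0) fun s hs => ?_,
      intervalIntegral.integral_zero]
    rw [uIcc_of_ge ht] at hs
    exact Real.smoothTransition.zero_of_nonpos
      (div_nonpos_of_nonpos_of_nonneg (sub_nonpos.2 hs.2) h.le)
  · rw [← intervalIntegral.integral_add_adjacent_intervals (i1 η' (2 * η')) (i1 _ t),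
      intervalIntegral.integral_congr (a := 2 * η') (g := fun _ => 1) fun s hs => ?_,
      intervalIntegral.integral_const, smul_eq_mul]
    · ring
    · rw [uIcc_of_le ht] at hs
      exact Real.smoothTransition.one_of_one_le ((one_le_div h).2 (by linarith [hs.1]))

variable {η' η'' : ℝ} {f : ℝ → ℝ}

theorem mono (h : Fc η' η'' f) : Monotone f :=
  monotone_of_deriv_nonneg (h.sm.differentiable (by simp)) fun t => (h.d1 t).1

theorem nonneg (h : Fc η' η'' f) (t : ℝ) : 0 ≤ f t :=
  (h.zero _ (min_le_right t η')).ge.trans (mono h (min_le_left _ _))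

theorem d2_zero (h : Fc η' η'' f) {t : ℝ} (ht : 2 * η' ≤ t) : deriv (deriv f) t = 0 := by
  have c : Continuous (deriv (deriv f)) :=
    (contDiff_infty_iff_deriv.1 (contDiff_infty_iff_deriv.1 h.sm).2).2.continuous
  have k : EqOn (deriv (deriv f)) (fun _ => 0) (Ioi (2 * η')) := fun s hs => by
    have e : f =ᶠ[𝓝 s] fun t => t - η'' :=
      mem_of_superset (Ioi_mem_nhds hs) fun t ht => h.lin t (le_of_lt ht)
    rw [e.deriv.deriv_eq]
    simp
  exact k.closure c continuous_const (by rwa [closure_Ioi])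

end UpdH

open UpdH

/-- **FC** -/
theorem fc : FC := by
  refine ⟨fun _ h => ex_fc h, fun n M _ B L hB hL => ?_⟩
  have h1 : 0 < L := by linarith [hB.one]
  have h2 := hB.s0
  have st := Real.smoothTransition.contDiff (n := ⊤)
  have b4 : ∀ t, 0 ≤ 4 * smoothTransition t ∧ 4 * smoothTransition t ≤ 4 := fun t =>
    ⟨by linarith [Real.smoothTransition.nonneg t], by linarith [Real.smoothTransition.le_one t]⟩
  refine ⟨fun x => smoothTransition (((L + 1) ^ 2 - ‖px x‖ ^ 2) / (2 * L + 1)),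
    fun x => 4 * smoothTransition ((-(B.s / 2) - B.F x) / (B.s / 4)),
    fun x => 4 * smoothTransition ((‖px x‖ ^ 2 - (L + 1) ^ 2) / (2 * L + 3)), hL,
    st.compM ((cd_const.sub contDiff_normSq).div_const _),
    cd_const.mul (st.compM ((cd_const.sub hB.smF).div_const _)),
    cd_const.mul (st.compM ((CD.sub contDiff_normSq cd_const).div_const _)),
    fun x => ⟨Real.smoothTransition.nonneg _, Real.smoothTransition.le_one _⟩, fun x => b4 _,
    fun x => b4 _, fun x hx => ?_, fun x hx => ?_, fun x hx => ?_, fun x hx => ?_, fun x hx => ?_,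
    fun x hx => ?_⟩
  · exact Real.smoothTransition.one_of_one_le ((one_le_div (by linarith)).2
      (by nlinarith [norm_nonneg (px x)]))
  · exact Real.smoothTransition.zero_of_nonpos (div_nonpos_of_nonpos_of_nonneg (by nlinarith)
      (by linarith))
  · rw [Real.smoothTransition.zero_of_nonpos (div_nonpos_of_nonpos_of_nonneg (by linarith)
      (by linarith)), mul_zero]
  · rw [Real.smoothTransition.one_of_one_le ((one_le_div (by linarith)).2 (by linarith)), mul_one]
  · rw [Real.smoothTransition.zero_of_nonpos (div_nonpos_of_nonpos_of_nonneg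
      (by nlinarith [norm_nonneg (px x)]) (by linarith)), mul_zero]
  · rw [Real.smoothTransition.one_of_one_le ((one_le_div (by linarith)).2 (by nlinarith)), mul_one]

/-- **UPD** -/
theorem upd_of (hA : ASY) : UPD := by
  intro n M _ B L m U a β R s' κ δ₀ η' ρ' η C ψ h βh R₁ η'' f τ R' hB hS hO hf h0 h1 hτ h2 h3 h4 h5 h6
  have p := hS.pos hB
  have e1 := hf.le.1
  have e2 := hf.le.2
  have t1 := hτ.1
  have t2 := hτ.2
  have f1 : ∀ x, f (h x) ≤ 1 - η'' := fun x => (mono hf (hO.h01 x).2).trans (hf.lin 1 h1.le).le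
  have k0 : 0 < 1 - τ * (1 - η'') := by nlinarith
  have k1 : ∀ x, 1 - τ * (1 - η'') ≤ 1 - τ * f (h x) := fun x => by nlinarith [f1 x]
  have s1 : Smooth fun x => f (h x) := hf.sm.compM hO.sm
  have s2 : Smooth fun x => 1 - τ * f (h x) := cd_const.sub (cd_const.mul s1)
  have s3 : Smooth fun x => U x * (1 - τ * f (h x)) := CD.mul hS.sm s2
  have l1 : ∀ x, lap B.g (fun x => U x * (1 - τ * f (h x))) x = (1 - τ * f (h x)) * lap B.g U x -
      τ * (deriv f (h x) * wl B.g U h x +
        deriv (deriv f) (h x) * (U x ^ 2 * ip B.g h h x)) / U x := fun x => by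
    rw [hB.met.lap_mul_wl (hS.sm.c2 x) (s2.c2 x) (p x).ne', wl_const_sub, wl_const_mul,
      hB.met.wl_comp (hS.sm.diff x) (hO.sm.c2 x) (hf.sm.contDiffAt.of_le (by norm_cast))]
    ring
  refine ⟨s3, mul_pos hS.a0 k0, ?_, fun x => ?_, fun x => ?_, fun x => ?_, fun x hx => ?_, ?_,
    hS.Rρ.trans h4, fun x hx => ?_, h3, by linarith [hS.s2]⟩
  · exact (mul_le_of_le_one_right hS.a0.le (by nlinarith)).trans hS.a1
  · rw [mul_right_comm]
    exact mul_le_mul (hS.lo x) (k1 x) k0.le (p x).le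
  · exact (mul_le_of_le_one_right (p x).le (by nlinarith [nonneg hf (h x)])).trans (hS.hi x)
  · have a1 := mul_le_mul_of_nonneg_left (hS.sup x) (k0.le.trans (k1 x))
    have a2 : 0 ≤ τ * (deriv f (h x) * wl B.g U h x +
        deriv (deriv f) (h x) * (U x ^ 2 * ip B.g h h x)) / U x :=
      div_nonneg (mul_nonneg t1.le (add_nonneg (mul_nonneg (hf.d1 _).1 (hO.sub x))
        (mul_nonneg (hf.d2 _) (mul_nonneg (sq_nonneg _) (hB.met.ip_nonneg _ _))))) (p x).le
    rw [l1]
    linarith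
  · rw [l1, hO.harm x (h5.trans hx), d2_zero hf (h6 x hx), hS.eqn x (h4.trans hx)]
    ring
  · have s4 : Smooth fun x => h x * U x := CD.mul hO.sm hS.sm
    have a1 := (hA n M U _ a a β βh hB.dim hS.sm s4 hS.asy).2.2.1 (1 + τ * η'') (-τ) hO.asy
    have a2 := (hA n M _ _ _ a _ β hB.dim (CD.add (cd_const.mul hS.sm)
      (cd_const.mul s4)) s3 a1).2.2.2.1 ⟨R', fun x hx => by rw [hf.lin _ (h6 x hx)]; ring⟩
    rwa [show (1 + τ * η'') * a + -τ * a = a * (1 - τ * (1 - η'')) by ring,
      show (1 + τ * η'') * β + -τ * βh = β * (1 + τ * η'') - τ * βh by ring] at a2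
  · rw [hf.zero _ (hO.small x (Or.inr hx)), hS.col x (by linarith), mul_zero, sub_zero, mul_one]

/-- **HLOW** -/
theorem hlow_of (hW : WMP) (hA : ASY) : HLOW := by
  intro n M _ B L m U a β R s' κ δ₀ η' ρ' η C ψ h βh R₁ R' hB hS hO h1 x hx
  have p := hS.pos hB
  have r1 : B.ρ ≤ R' := hO.Rρ.trans h1
  have r0 : 0 < R' := by linarith [hB.one]
  have nz : ∀ y : M, R' ≤ ‖px y‖ → px y ≠ 0 := fun y hy => norm_pos_iff.1 (r0.trans_le hy)
  have s4 : Smooth fun x => U x * h x := CD.mul hS.sm hO.sm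
  have e1 : ∀ y : M, R' ≤ ‖px y‖ → (R' / ‖px y‖) ^ (n - 2 : ℝ) =
      R' ^ (n - 2 : ℝ) * ‖px y‖ ^ (2 - n : ℝ) := fun y hy => by
    rw [Real.div_rpow r0.le (norm_nonneg _), div_eq_mul_inv, ← Real.rpow_neg (norm_nonneg _),
      neg_sub]
  have bd : ∀ y : M, ‖px y‖ = R' → 0 ≤ 1 * (U y * h y) +
      a * R' ^ (n - 2 : ℝ) * ‖px y‖ ^ (2 - n : ℝ) + -a := fun y hy => by
    rw [mul_assoc, ← e1 y hy.ge, hy, div_self r0.ne', Real.one_rpow]
    linarith [mul_pos (p y) (hO.h01 y).1]
  have o1 : IsOpen {y : M | R' < ‖px y‖} := isOpen_lt continuous_const cont_npx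
  have c2 : ∀ y : M, R' ≤ ‖px y‖ → CAt 2 (fun y : M => 1 * (U y * h y) +
      a * R' ^ (n - 2 : ℝ) * ‖px y‖ ^ (2 - n : ℝ) + -a) y := fun y hy =>
    ((cAt_const.mul (s4.c2 y)).add
      (cAt_const.mul (contDiffAt_norm_rpow (nz y hy) two_le_oo _))).add cAt_const
  have key := hW n M B.g (fun _ => 1) _ (fun _ => 0) _ (by linarith [hB.dim]) hB.met cd_const
    (fun _ => one_pos) o1 (fun y hy => (c2 y (closure_lt_subset_le continuous_const
      cont_npx hy)).continuousAt.continuousWithinAt) (fun y hy => ⟨c2 y (le_of_lt hy),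
      le_rfl, ?_⟩) (fun y hy => bd y (frontier_lt_subset_eq continuous_const cont_npx hy).symm)
    fun e he => ?_
  · have k : 0 ≤ 1 * (U x * h x) + a * R' ^ (n - 2 : ℝ) * ‖px x‖ ^ (2 - n : ℝ) + -a :=
      hx.eq_or_lt.elim (fun k => bd x k.symm) (key x)
    rw [e1 x hx]
    linarith
  · have y1 : R' < ‖px y‖ := hy
    have k1 := hB.met.lap_mul_wl (hS.sm.c2 y) (hO.sm.c2 y) (p y).ne'
    rw [hO.harm y (h1.trans y1.le), zero_div, add_zero] at k1
    rw [wl_add_const, hB.met.wl_lin (dAt_const _) (s4.c2 y)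
      (contDiffAt_norm_rpow (nz y y1.le) two_le_oo _), wl_one, wl_one, k1, hB.flat.lap_eq (r1.trans_lt y1)
      fun y => ‖px y‖ ^ (2 - n : ℝ), lap_eu_rpow (hB.flat.far (r1.trans y1.le))]
    have k2 := (hS.sup y).trans
      (mul_nonpos_of_nonpos_of_nonneg (hB.Qf y (r1.trans y1.le)).2 (p y).le)
    have k3 := mul_nonpos_of_nonneg_of_nonpos (hO.h01 y).1.le k2
    simp only [sub_add_cancel, sub_self, mul_zero, zero_mul]
    linarith
  · have s5 : Smooth fun x => h x * U x := CD.mul hO.sm hS.sm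
    have t := (hA n M _ _ a a βh βh hB.dim s5 s5 hO.asy).1.1.eventually
      (lt_mem_nhds (sub_lt_self a he))
    obtain ⟨ρ, hρ⟩ := ev_cocompact.1 t
    refine ⟨ρ, fun y _ hy => ?_⟩
    have k : a - e < h y * U y := hρ y hy
    have k1 : 0 ≤ a * R' ^ (n - 2 : ℝ) * ‖px y‖ ^ (2 - n : ℝ) := by have := hS.a0; positivity
    linarith

end Vale.Agent.P366M.G
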