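import Vale.Agent.P366M.Ext
import Vale.Agent.P366D.Defs

/-!
# P366Q, block G: backgrounds with a shield, on a manifold
-/

open MeasureTheory Metric Filter Topology Set
open scoped ContDiff ENNReal
open Vale.Agent.P366 Vale.Agent.P366.Stmt Vale.Agent.P366Z

noncomputable section

namespace Vale.Agent.P366M.G

variable {n : ℕ} {M : Type} [Mfe n M]

/-- the background -/
structure Bg (n : ℕ) (M : Type) [Mfe n M] where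
  g : Fld n M
  F : M → ℝ
  U : M → ℝ
  Q : M → ℝ
  ρ : ℝ
  s : ℝ
  h : ℝ
  δ : ℝ

/-- the properties of the background -/
structure Bg.Ok (B : Bg n M) : Prop where
  dim : 3 ≤ n
  met : Met B.g
  flat : Flat B.g B.ρ
  one : 1 ≤ B.ρ
  smF : Smooth B.F
  smU : Smooth B.U
  s0 : 0 < B.s
  h0 : 0 < B.h
  δ0 : 0 < B.δ
  far : ∀ x, B.ρ ≤ ‖px x‖ → B.s < B.F x
  deep : ∃ x, B.F x ≤ -B.s
  Ub : ∀ x, 1 / 2 ≤ B.U x ∧ B.U x ≤ 2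
  eqn : ∀ x, lap B.g B.U x = B.Q x * B.U x
  slack : ∃ P : M → ℝ, Smooth P ∧ (∀ x, 0 ≤ P x) ∧ (∀ x, B.ρ ≤ ‖px x‖ → P x = 0) ∧
    ∀ x, 0 ≤ B.F x → 0 < scal B.g x - 4 * gam n * B.Q x + P x ^ 2 ∧
      gn B.g P x ≤ B.δ * (max (scal B.g x - 4 * gam n * B.Q x) 0 + P x ^ 2)
  Qf : ∀ x, B.ρ ≤ ‖px x‖ → -(B.δ * ‖px x‖ ^ (-(n + 2) : ℝ)) ≤ B.Q x ∧ B.Q x ≤ 0
  Qd : ∃ C, ∀ x, ‖fd B.Q x‖ ≤ C
  cal : ∀ x, |B.F x| ≤ B.s → gn B.g B.F x ≠ 0 ∧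
    dv B.g (fun i y => B.U y ^ (2 * gam n) * gr B.g B.F i y / gn B.g B.F y) x ≤ -B.h

/-- a state of the flow: the factor `U` tends to `a`, has the coefficient `β`, solves the equation
outside the ball of radius `R` and is unchanged on `{F ≤ s'}` -/
structure St (B : Bg n M) (U : M → ℝ) (a β R s' : ℝ) : Prop where
  sm : Smooth U
  a0 : 0 < a
  a1 : a ≤ 1
  lo : ∀ x, a * B.U x ≤ U x
  hi : ∀ x, U x ≤ B.U x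
  sup : ∀ x, lap B.g U x ≤ B.Q x * U x
  eqn : ∀ x, R ≤ ‖px x‖ → lap B.g U x = B.Q x * U x
  asy : Asy U a β
  Rρ : B.ρ ≤ R
  col : ∀ x, B.F x ≤ s' → U x = B.U x
  s1 : B.s / 2 ≤ s'
  s2 : s' ≤ B.s

/-- the class of the competitors -/
structure Cls (B : Bg n M) (L : ℝ) (ψ : M → ℝ) : Prop where
  lip : Lip ψ
  mem : ∀ x, 0 ≤ ψ x ∧ ψ x ≤ 1
  zero : ∀ x, B.F x ≤ B.s / 4 → ψ x = 0
  one : ∀ x, L ≤ ‖px x‖ → ψ x = 1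

/-- the perimeter functional -/
def per (B : Bg n M) (U ψ : M → ℝ) : ℝ := ∫ x, U x ^ (2 * gam n) * gn B.g ψ x * dens B.g x

/-- the perimeter with the volume term -/
def pp (B : Bg n M) (m U : M → ℝ) (κ : ℝ) (ψ : M → ℝ) : ℝ :=
  per B U ψ + κ * ∫ x, m x * ψ x * dens B.g x

/-- `ψ` minimises `pp` up to `η` -/
def Near (B : Bg n M) (L : ℝ) (m U : M → ℝ) (κ η : ℝ) (ψ : M → ℝ) : Prop :=
  Cls B L ψ ∧ ∀ ψ', Cls B L ψ' → pp B m U κ ψ ≤ pp B m U κ ψ' + η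

/-- the weight of the volume term and the two penalties -/
structure Pen (B : Bg n M) (L : ℝ) (m p q : M → ℝ) : Prop where
  big : 2 * B.ρ ≤ L
  smm : Smooth m
  smp : Smooth p
  smq : Smooth q
  m01 : ∀ x, 0 ≤ m x ∧ m x ≤ 1
  p04 : ∀ x, 0 ≤ p x ∧ p x ≤ 4
  q04 : ∀ x, 0 ≤ q x ∧ q x ≤ 4
  m1 : ∀ x, ‖px x‖ ≤ L → m x = 1
  m0 : ∀ x, L + 1 ≤ ‖px x‖ → m x = 0
  p0 : ∀ x, -(B.s / 2) ≤ B.F x → p x = 0
  p4 : ∀ x, B.F x ≤ -(3 * B.s / 4) → p x = 4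
  q0 : ∀ x, ‖px x‖ ≤ L + 1 → q x = 0
  q4 : ∀ x, L + 2 ≤ ‖px x‖ → q x = 4

/-! ### the data of the positive mass theorem -/

/-- the data of the positive mass theorem with room; the metric is `cf v g₀` -/
structure Pr (g₀ : Fld n M) (v f : M → ℝ) (O : Set M) (h : M → ℝ) (ρ θ : ℝ) : Prop where
  met : Met g₀
  flat : Flat g₀ ρ
  smv : Smooth v
  v0 : ∀ x, 0 < v x
  smf : Smooth f
  opn : IsOpen O
  smh : ∀ x ∈ O, CAt ∞ h x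
  h0 : ∀ x ∈ O, 0 ≤ h x
  cls : ∀ c, IsClosed {x | x ∈ O ∧ h x ≤ c}
  pos : ∀ x ∈ O, 0 < P366D.Rf (cf v g₀) f x + 9 / 10 * h x ^ 2 - 11 / 5 * gn (cf v g₀) h x
  big : ∃ h₁, ∀ x ∈ O, h₁ ≤ h x → gn (cf v g₀) h x ≤ θ * h x ^ 2
  out : ∀ x, ρ ≤ ‖px x‖ → x ∈ O ∧ h x = 0 ∧ f x = 0

/-- outside the ball of radius `R` the metric of `v` is, up to scaling, the end of such data -/
def Rig (v : M → ℝ) (R : ℝ) : Prop := ∀ θ > (0 : ℝ), ∃ (M' : Type) (_ : Mfe n M') (g₀ : Fld n M')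
  (v' f : M' → ℝ) (O : Set M') (h : M' → ℝ) (l c : ℝ), 0 < l ∧ 0 < c ∧ Pr g₀ v' f O h (l * R) θ ∧
    ∀ y : E n, R ≤ ‖y‖ → fe v' (l • y) = c * fe v y

/-- the same with a small mass; replaces the almost parallel spinor -/
def Par (v : M → ℝ) (R e : ℝ) : Prop :=
  Rig v R ∧ ∃ a β, 0 < a ∧ Asy v a β ∧ β * a ^ (-bb n - 1) ≤ e

theorem Pr.mono {g₀ : Fld n M} {v f h : M → ℝ} {O : Set M} {ρ ρ' θ : ℝ} (H : Pr g₀ v f O h ρ θ)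
    (e : ρ ≤ ρ') : Pr g₀ v f O h ρ' θ :=
  { H with
    flat := ⟨H.flat.R.trans e, fun x hx => H.flat.eq x (e.trans hx)⟩
    out := fun x hx => H.out x (e.trans hx) }

theorem Rig.mono {v : M → ℝ} {R R' : ℝ} (H : Rig v R) (e : R ≤ R') : Rig v R' := fun θ hθ => by
  obtain ⟨M', _, g₀, v', f, O, h, l, c, l0, c0, h1, h2⟩ := H θ hθ
  exact ⟨M', _, g₀, v', f, O, h, l, c, l0, c0, h1.mono (mul_le_mul_of_nonneg_left e l0.le),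
    fun y hy => h2 y (e.trans hy)⟩

theorem Par.mono_R {v : M → ℝ} {R R' e : ℝ} (H : Par v R e) (h : R ≤ R') : Par v R' e :=
  ⟨H.1.mono h, H.2⟩

theorem Par.mono {v : M → ℝ} {R e e' : ℝ} (H : Par v R e) (h : e ≤ e') : Par v R e' := by
  obtain ⟨h1, a, β, h2, h3, h4⟩ := H
  exact ⟨h1, a, β, h2, h3, h4.trans h⟩

/-- the output of one step: the near minimiser `ψ`, the potential `h` with the coefficient `βh`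
of `h U`, and the radius `R₁` of the supports -/
structure Out (B : Bg n M) (L : ℝ) (m U : M → ℝ) (a β s' κ δ₀ η' ρ' η C : ℝ) (ψ h : M → ℝ)
    (βh R₁ : ℝ) : Prop where
  near : Near B L m U κ η ψ
  thin : volume {x | 0 < ψ x ∧ ψ x < 1} ≤ ENNReal.ofReal η
  sm : Smooth h
  h01 : ∀ x, 0 < h x ∧ h x ≤ 1
  sub : ∀ x, 0 ≤ wl B.g U h x
  harm : ∀ x, R₁ ≤ ‖px x‖ → wl B.g U h x = 0
  asy : Asy (fun x => h x * U x) a βh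
  small : ∀ x, ψ x < 1 ∨ B.F x ≤ s' - ρ' → h x ≤ η'
  Rρ : B.ρ ≤ R₁
  mass : 0 ≤ β + (1 - δ₀) * βh
  le : βh ≤ β
  ener : ∫⁻ x, ENNReal.ofReal (U x ^ 2 * ip B.g h h x * dens B.g x) ≤
    ENNReal.ofReal ((n - 2) * omega n * a * (β - βh))
  par : ∀ e > 0, Par (fun x => U x * (1 + (1 - δ₀) * h x) / 2) R₁
    (C * (β + (1 - δ₀) * βh) * a ^ (-bb n - 1) + e)

/-- the shield is strong enough -/
def Sm (B : Bg n M) (a₀ δ₀ : ℝ) : Prop := B.δ ≤ (δ₀ / 2) ^ bb n * (a₀ / 2) ^ bb n / 128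

/-- the metric `U ^ (2 b) g` dominates the metric of the data -/
def Cmp (D : Exterior n M) (η : ℝ) (g : Fld n M) (U : M → ℝ) : Prop :=
  ∀ x, 0 ≤ D.F x → ∀ ξ : Fin n → ℝ, (1 - η) * (dens D.g x * covNorm D.g (fun i _ => ξ i) x) ≤
    U x ^ (2 * gam n) * covNorm g (fun i _ => ξ i) x * dens g x

/-- a metric `u ^ (2 b) g` with positive scalar curvature outside a neck of length `ℓ` -/
structure Nk (D : Exterior n M) (m η ρ δ c₀ ℓ : ℝ) (g : Fld n M) (u Q t : M → ℝ) (β : ℝ) :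
    Prop where
  met : Met g
  flat : Flat g (ρ / 2)
  smu : Smooth u
  smt : Smooth t
  lo : ∀ x, 1 / 2 ≤ u x
  hi : ∀ x, ρ / 2 ≤ ‖px x‖ → u x ≤ 3 / 2
  eqn : ∀ x, lap g u x = Q x * u x
  Qf : ∀ x, ρ ≤ ‖px x‖ → -(δ * ‖px x‖ ^ (-(n + 2) : ℝ)) ≤ Q x ∧ Q x ≤ 0
  Qd : ∃ C, ∀ x, ρ ≤ ‖px x‖ → ‖fd Q x‖ ≤ C
  asy : Asy u 1 β
  mass : 2 * β ≤ m + η
  pos : ∀ x, t x ≤ ℓ → 0 < scal g x - 4 * gam n * Q x
  out : ∀ x, ρ / 2 ≤ ‖px x‖ → t x ≤ 0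
  ann : ∀ x, ρ / 2 ≤ ‖px x‖ → ‖px x‖ ≤ ρ → c₀ ≤ scal g x - 4 * gam n * Q x
  nk : ∀ x, 0 ≤ t x → t x ≤ ℓ →
    ip g t t x ≤ scal g x - 4 * gam n * Q x ∧ c₀ * gn g t x ≤ 1
  deep : ∀ x, D.F x ≤ 0 → ℓ ≤ t x
  cmp : Cmp D η g u

/-- **the input of block G**: necks of any length -/
def Neck (D : Exterior n M) (m : ℝ) : Prop := ∀ η > (0 : ℝ), ∃ ρ ≥ (2 : ℝ), ∀ δ > (0 : ℝ),
  ∃ c₀ > (0 : ℝ), ∀ ℓ : ℝ, ∃ g u Q t β, Nk D m η ρ δ c₀ ℓ g u Q t β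

/-- the same with a bounded factor -/
def Neck2 (D : Exterior n M) (m : ℝ) : Prop := ∀ η > (0 : ℝ), ∃ ρ ≥ (2 : ℝ), ∀ δ > (0 : ℝ),
  ∃ c₀ > (0 : ℝ), ∀ ℓ : ℝ, ∃ g u Q t β, Nk D m η ρ δ c₀ ℓ g u Q t β ∧ ∀ x, u x ≤ 7 / 4

/-- the reduction to a background -/
def Red (D : Exterior n M) (m : ℝ) : Prop := ∀ η > (0 : ℝ), ∃ ρ : ℝ, ∀ δ > (0 : ℝ),
  ∃ (B : Bg n M) (β : ℝ), B.Ok ∧ B.ρ ≤ ρ ∧ B.δ ≤ δ ∧ Asy B.U 1 β ∧ 2 * β ≤ m + η ∧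
    (∀ x, D.F x ≤ 0 → B.F x ≤ 0) ∧ Cmp D η B.g B.U

end Vale.Agent.P366M.G
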