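import Vale.Agent.P366Q.G.Int

/-!
# P366Q, block G: the states are weights
-/

open MeasureTheory Metric Filter Topology Set
open scoped ContDiff ENNReal
open Vale.Agent.P366 Vale.Agent.P366.Stmt Vale.Agent.P366Z

noncomputable section

namespace Vale.Agent.P366M.G

theorem stwt : STWT := by
  intro n M _ B U a β R s' hB hS
  have lo : ∀ x, a / 2 ≤ U x := fun x => by nlinarith [hS.lo x, (hB.Ub x).1, hS.a0]
  have a2 : 0 < a / 2 := half_pos hS.a0
  have U0 : ∀ x, U x ≠ 0 := fun x => (a2.trans_le (lo x)).ne'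
  have sQ : Smooth fun x => lap B.g U x / U x := CD.div (hB.met.sm_lap hS.sm) hS.sm U0
  have eQ : ∀ x, R ≤ ‖px x‖ → lap B.g U x / U x = B.Q x := fun x hx => by
    rw [hS.eqn x hx, mul_div_cancel_right₀ _ (U0 x)]
  have n3 : (3 : ℝ) ≤ n := by exact_mod_cast hB.dim
  obtain ⟨K1, -, h1⟩ := bdd_of_out sQ.cont (R := R) (C := B.δ) fun y hy => by
    have r := hS.Rρ.trans hy.le
    have := Real.rpow_le_one_of_one_le_of_nonpos (hB.one.trans r)
      (by linarith : (-(n + 2) : ℝ) ≤ 0)
    rw [eQ y hy.le, Real.norm_eq_abs, abs_of_nonpos (hB.Qf y r).2]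
    nlinarith [(hB.Qf y r).1, hB.δ0]
  obtain ⟨D, hD⟩ := hB.Qd
  obtain ⟨K2, -, h2⟩ := fd_bdd_of_out sQ.one (R := R) (C := D) fun y hy => by
    rw [fd_congr (g := B.Q) ((ev_lt_px hy).mono fun z hz => eQ z hz.le)]
    exact hD y
  obtain ⟨C, R', hA⟩ := hS.asy
  obtain ⟨K3, -, h3⟩ := fd_bdd_of_out hS.sm.one (R := max R' 1)
    (C := √(∑ _i : Fin n, (|(n - 2) * β| + |C|) ^ 2)) fun y hy => by
      have r1 := (le_max_right _ _).trans hy.le
      have p1 := Real.rpow_le_one_of_one_le_of_nonpos r1 (by linarith : (-n : ℝ) ≤ 0)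
      have p2 := Real.rpow_le_one_of_one_le_of_nonpos r1 (by linarith : (-n + 1 : ℝ) ≤ 0)
      have p0 : 0 ≤ ‖px y‖ ^ (-n : ℝ) := by positivity
      rw [Real.rpow_add_one (by linarith)] at p2
      refine Real.le_sqrt_of_sq_le ?_
      rw [norm_fderiv_sq (hS.sm.diff y)]
      refine Finset.sum_le_sum fun i _ => ?_
      have q1 : |(n - 2) * β * px y i * ‖px y‖ ^ (-n : ℝ)| ≤ |(n - 2) * β| := by
        rw [mul_assoc, abs_mul, abs_mul (px y i), abs_of_nonneg p0]
        refine mul_le_of_le_one_right (abs_nonneg _) (le_trans ?_ p2)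
        rw [mul_comm]
        gcongr
        exact PiLp.norm_apply_le (px y) i
      have q2 := abs_le.1 (((hA y ((le_max_left _ _).trans hy.le)).2 i).trans
        ((mul_le_mul_of_nonneg_right (le_abs_self C) p0).trans
          (mul_le_of_le_one_right (abs_nonneg C) p1)))
      have q3 := abs_le.1 q1
      exact sq_le_sq' (by linarith [q2.1, q3.2]) (by linarith [q2.2, q3.1])
  exact ⟨hS.sm, a / 2, a2, max (max 2 K3) (max K1 K2), fun x => ⟨lo x,
    ((hS.hi x).trans (hB.Ub x).2).trans ((le_max_left _ _).trans (le_max_left _ _)),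
    (h3 x).trans ((le_max_right _ _).trans (le_max_left _ _)),
    (h1 x).trans ((le_max_left _ _).trans (le_max_right _ _)),
    (h2 x).trans ((le_max_right _ _).trans (le_max_right _ _))⟩⟩

end Vale.Agent.P366M.G
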