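import Vale.Agent.P366Q.G.Flow
import Vale.Agent.P366Q.G.Upd
import Vale.Agent.P366Q.G.Area
import Vale.Agent.P366Q.G.Res
import Vale.Agent.P366M.Max

/-!
# P366Q, block G: the flow from one step and the stability
-/

namespace Vale.Agent.P366M.G

theorem upd : UPD := upd_of asy

theorem hlow : HLOW := hlow_of wmp asy

/-- the flow from one step and the stability -/
theorem flow (h1 : ONE) (h2 : STAB2) : FLOW :=
  flow_of h1 fc upd hlow nest area ramp e4 h2 newt harn asy

end Vale.Agent.P366M.G
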