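import Vale.Agent.P366Q.G.Rps
import Vale.Agent.P366Q.G.FlowA
import Vale.Agent.P366Q.O.One
import Vale.Agent.P366Q.O.Cover
import Vale.Agent.P366Q.O.Phi
import Vale.Agent.P366Q.O.Ener

/-!
# P366Q, block G from the rows which need the positive mass theorem or the regularity theory
-/

namespace Vale.Agent.P366M.G

/-- **block G** -/
theorem rps_all (h₁ : MB) (h₂ : BDC) (h₃ : MASSR) (h₄ : STAB2) : RPS :=
  rps_of_flow (flow (one_of h₁ cover phi h₂ h₃ ener asy) h₄)

end Vale.Agent.P366M.G
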