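import Vale.Agent.P366Q.G.Int
import Vale.Agent.P366Z.E4
import Vale.Agent.P366Z.Mv

/-!
# P366Q, block G: decay of the potential near a fat set in the end
-/

open MeasureTheory Metric Filter Topology Set
open scoped ContDiff ENNReal
open Vale.Agent.P366 Vale.Agent.P366.Stmt Vale.Agent.P366Z

noncomputable section

namespace Vale.Agent.P366M.G

/-- the conclusion of `E4` -/
def E4C {n : ℕ} (M : Type) [Mfe n M] (C₀ c δ₂ δ : ℝ) : Prop :=
  ∀ (U h : M → ℝ) (x₀ : E n) (a R : ℝ), 0 < a → 0 < R → Smooth U → Smooth h →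
    (∀ y ∈ ball x₀ R, R0 M + 1 ≤ ‖y‖) →
    (∀ x : M, px x ∈ ball x₀ R → a ≤ U x ∧ U x ≤ C₀ * a ∧ lap (eu n) U x ≤ 0 ∧
      0 ≤ wl (eu n) U h x ∧ 0 ≤ h x ∧ h x ≤ 1) → Fat {y | fe h y ≤ δ₂ / 2} c x₀ (δ * R) R →
    ∀ x : M, px x ∈ ball x₀ (δ * R) → h x < δ₂

/-- **E4**: decay of the potential near a fat set -/
def E4 : Prop := ∀ (n : ℕ) (C₀ c δ₂ : ℝ), 3 ≤ n → 0 < c → 0 < δ₂ → ∃ δ > (0 : ℝ),
  ∀ (M : Type) [Mfe n M], E4C M C₀ c δ₂ δ

theorem e4 : E4 := by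
  intro n C₀ c δ₂ hn hc hδ
  obtain ⟨δ, δ0, H⟩ := P366Z.e4_of P366Z.mv n C₀ c δ₂ hn hc hδ
  refine ⟨min δ 1, by positivity, fun M _ U h x₀ a R ha hR hU hh hb hy hF x hx => ?_⟩
  obtain ⟨U', sU, eU⟩ := exists_ext0 hU
  obtain ⟨h', sh, eh⟩ := exists_ext0 hh
  have d1 : min δ 1 * R ≤ δ * R := mul_le_mul_of_nonneg_right (min_le_left _ _) hR.le
  have d2 : min δ 1 * R ≤ R := mul_le_of_le_one_left hR.le (min_le_right _ _)
  have ev : ∀ {u : M → ℝ} {u' : E n → ℝ}, (∀ y, R0 M + 1 / 2 ≤ ‖y‖ → u' y = fe u y) →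
      ∀ y ∈ ball x₀ R, u' =ᶠ[𝓝 y] fj Mfe.o u := fun e y hy =>
    (ev_lt_norm (ρ := R0 M + 1 / 2) (by linarith [hb y hy])).mono fun z hz => e z hz.le
  have h1 := hb _ (ball_subset_ball d2 hx)
  have key := H U' h' x₀ a R ha hR sU sh (fun y k => by
      have k1 := hb y k
      have k2 := hy (yp y) (by rwa [px_yp (by linarith)])
      rw [P366Z.lap_congr (ev eU y k), P366Z.wl_congr (ev eU y k) (ev eh y k),
        eU y (by linarith), eh y (by linarith), ← fj_eu (M := M) Mfe.o,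
        ← lap_ye (by linarith), ← wl_ye (by linarith)]
      exact k2)
    (fun t t1 t2 => (hF t (d1.trans t1) t2).trans (measure_mono fun y k => ⟨k.1, by
      have k1 := hb y (ball_subset_ball t2 k.1)
      show h' y ≤ _
      rw [eh y (by linarith)]
      exact k.2⟩)) (px x) (ball_subset_ball d1 hx)
  rwa [eh _ (by linarith), fe, yp_px (by linarith)] at key

end Vale.Agent.P366M.G
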