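import Vale.Agent.P366Q.G.Sk
import Vale.Agent.P366Q.G.LinkB
import Vale.Agent.P366M.Apx
import Vale.Agent.P366M.Sard

/-!
# P366Q, LINK: the perimeter functional bounds the minimal enclosing area
-/

open MeasureTheory Metric Filter Topology Set
open scoped ContDiff ENNReal
open Vale.Agent.P366 Vale.Agent.P366.Stmt Vale.Agent.P366Z

noncomputable section

namespace Vale.Agent.P366M

namespace Lk

theorem cs {n : ℕ} {M : Type} [Mf0 n M] {g : Fld n M} (hg : Met g) (x : M) (ξ X : Fin n → ℝ)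
    (hX : ∑ i, ∑ j, g x i j * X i * X j ≤ 1) :
    -∑ i, ξ i * X i ≤ covNorm g (fun i _ => ξ i) x := by
  have h1 := hg.up_cs x ξ fun j => ∑ k, g x j k * X k
  have h3 : ∀ b : Fin n → ℝ, ∑ i, ∑ j, up g i j x * b i * ∑ k, g x j k * X k = ∑ i, b i * X i :=
    fun b => Finset.sum_congr rfl fun i _ => by
      rw [← hg.up_g_mul x i X, Finset.mul_sum]
      exact Finset.sum_congr rfl fun j _ => by ring
  have h4 : ∑ i, (∑ k, g x i k * X k) * X i = ∑ i, ∑ j, g x i j * X i * X j :=
    Finset.sum_congr rfl fun i _ => by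
      rw [Finset.sum_mul]
      exact Finset.sum_congr rfl fun j _ => by ring
  rw [h3, h3, h4] at h1
  exact (neg_le_abs _).trans (Real.abs_le_sqrt
    (h1.trans (mul_le_of_le_one_right (hg.up_nonneg x ξ) hX)))

theorem llip {n : ℕ} {M : Type} [Mfs n M] {u : M → ℝ} (hu : Lip u) : LLip u := llip_of fun x =>
  let ⟨_, hK⟩ := hu
  ⟨ch x, ch_mem x, mem_ch x, (hK.locallyLipschitz.comp (Mfs.lip x)) _⟩

variable {n : ℕ} {M : Type} [Mfe n M]

open G in
theorem step (D : Exterior n M) {B : Bg n M} {η L ε : ℝ} {ψ : M → ℝ} (hB : B.Ok) (hη : η < 1)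
    (hF : ∀ x, D.F x ≤ 0 → B.F x ≤ 0) (hc : ∀ x, 0 ≤ D.F x → ∀ ξ : Fin n → ℝ,
      (1 - η) * (dens D.g x * covNorm D.g (fun i _ => ξ i) x) ≤
        B.U x ^ (2 * gam n) * covNorm B.g (fun i _ => ξ i) x * dens B.g x) (hψ : Cls B L ψ)
    (h0 : 0 < ε) (h1 : ε < 1 / 2) :
    D.Amin ≤ ENNReal.ofReal ((per B B.U ψ + ε) / (1 - η) / (1 - ε - ε)) := by
  have hη' : 0 < 1 - η := sub_pos.2 hη
  have hs := hB.s0
  have U0 : ∀ x, 0 < B.U x := fun x => by linarith [(hB.Ub x).1]
  let a : M → ℝ := fun x => B.U x ^ (2 * gam n) * dens B.g x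
  have ha : Continuous a := (hB.smU.rpow U0 _).cont.mul hB.met.sm_dens.cont
  have a0 : ∀ x, 0 ≤ a x := fun x => mul_nonneg (Real.rpow_nonneg (U0 x).le _) (dens_nonneg _ _)
  obtain ⟨v, hv, vc, u1, u3⟩ := ((llip hψ.lip).sub (llip_const 1)).apx_le
    (HasCompactSupport.intro (isCompact_px M L) fun x hx => by
      rw [hψ.one x (not_le.1 hx).le, sub_self]) hB.met bg_met ha a0 h0
  obtain ⟨u, hu'⟩ : ∃ u : M → ℝ, u = fun x => v x + 1 := ⟨_, rfl⟩
  have hu : Smooth u := hu' ▸ CD.add hv cd_const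
  have du : ∀ i x, pd i u x = pd i v x := fun i x => hu' ▸ pd_add_const 1 i
  replace u1 : ∀ x, |u x - ψ x| ≤ ε := fun x => by
    rw [hu']; convert u1 x using 2; ring
  have u4 : ∫ x, a x * gn B.g (fun x => ψ x - 1) x ∂vol bg = per B B.U ψ :=
    integral_congr_ae (.of_forall fun x => by
      simp only [a, gn_of_pd_eq (u := fun x => ψ x - 1) (pd_sub_const 1)]; ring)
  let w : M → ℝ := fun x => a x * gn B.g v x / (1 - η)
  have hw : Continuous w := (ha.mul (hB.met.cont_gn hv.one)).div_const _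
  have hw0 : ∀ x, 0 ≤ w x := fun x => div_nonneg (mul_nonneg (a0 x) (gn_nonneg _ _ _)) hη'.le
  obtain ⟨t, ⟨t0, t1⟩, t2, t3⟩ := lev volume hu.cont.measurable hw.measurable
    (show ε < 1 - ε by linarith) (cv_null hu)
  obtain ⟨β, G, hβ, hG, b1, b2, b3, b4, -⟩ := comp (t := t) (C := 2) (L := L)
    (Q := {x | B.F x ≤ B.s / 4}) (by linarith [hB.dim]) hu (reg_of_notMem t2)
    (fun x hx => by linarith [(abs_le.1 (u1 x)).1, hψ.one x hx.le])
    (fun x => by linarith [(abs_le.1 (u1 x)).2, (hψ.mem x).2])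
    (isClosed_le hB.smF.cont continuous_const)
    fun x hx => by linarith [(abs_le.1 (u1 x)).2, hψ.zero x hx]
  have hD : ∀ x, 0 < B.F x → 0 ≤ D.F x := fun x hx => (not_le.1 fun k => (hF x k).not_gt hx).le
  have hA : ∀ x, t ≤ u x → 0 < B.F x := fun x hx => not_le.1 fun k => by
    linarith [(abs_le.1 (u1 x)).2, hψ.zero x (by linarith)]
  refine (show D.Amin ≤ D.area G from
    sInf_le ⟨G, hG, fun x hx => hD x (hA x (b3 x hx)), rfl⟩).trans (sSup_le ?_)
  rintro _ ⟨X, ⟨hX, ⟨R, hR⟩, hX1⟩, rfl⟩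
  have hβ' : Smooth fun y => 1 - β y := CD.sub cd_const hβ
  have key := ibp_lev (w := w) (t := t) D.met hu ((CV.smul hβ' hX).of_le one_le_oo)
    (isCompact_px M R) (fun x hx i => by rw [hR x (not_le.1 hx) i, mul_zero]) fun x => by
      by_cases hx : 0 < B.F x
      · have k1 := cs D.met x (fun i => pd i v x) (fun i => X i x) (hX1 x (hD x hx))
        have k2 := hc x (hD x hx) fun i => pd i v x
        have k3 : -(∑ i, pd i u x * ((1 - β x) * X i x)) * dens D.g x =
            (1 - β x) * (dens D.g x * -∑ i, pd i v x * X i x) := by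
          simp only [du, mul_left_comm _ (1 - β x), ← Finset.mul_sum]
          ring
        have k4 : 0 ≤ dens D.g x * covNorm D.g (fun i _ => pd i v x) x :=
          mul_nonneg (dens_nonneg _ _) (Real.sqrt_nonneg _)
        rw [k3]
        refine (mul_le_mul_of_nonneg_left (mul_le_mul_of_nonneg_left k1 (dens_nonneg _ _))
          (sub_nonneg.2 (b1 x).2)).trans ((mul_le_of_le_one_left k4 (by linarith [(b1 x).1])).trans
          ((le_div_iff₀' hη').2 (k2.trans_eq (mul_right_comm _ _ _))))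
      · simp only [b2 x (show B.F x ≤ B.s / 4 by linarith [not_lt.1 hx]), sub_self, zero_mul,
          mul_zero, Finset.sum_const_zero, neg_zero, hw0]
  have e1 : ∫ x in {x | 0 ≤ G x}, dv D.g X x * dens D.g x =
      ∫ x in {x | t ≤ u x}, dv D.g (fun i y => (1 - β y) * X i y) x * dens D.g x := by
    rw [← integral_indicator (isClosed_le continuous_const hG.1.cont).measurableSet,
      ← integral_indicator (isClosed_le continuous_const hu.cont).measurableSet]
    refine integral_congr_ae (.of_forall fun x => ?_)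
    by_cases hx : t ≤ u x
    · rw [indicator_of_mem (show x ∈ {x | t ≤ u x} from hx),
        D.met.dv_smul (hβ'.diff x) (hX.dv (by simp) x)]
      simp only [pd_const_sub, (b4 x hx).1, (b4 x hx).2, indicator, mem_ofPred_eq]
      split_ifs <;> simp
    · rw [indicator_of_notMem (show x ∉ {x | t ≤ u x} from hx),
        indicator_of_notMem (show x ∉ {x | 0 ≤ G x} from fun k => hx (b3 x k))]
  rw [e1, ENNReal.ofReal_div_of_pos (by linarith)]
  refine key.trans (t3.trans (ENNReal.div_le_div_right ?_ _))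
  have iw : Integrable w := (hv.llip.int_gn vc hB.met bg_met ha).div_const _
  rw [← ofReal_integral_eq_lintegral_ofReal iw (.of_forall hw0), integral_div]
  exact ENNReal.ofReal_le_ofReal (div_le_div_of_nonneg_right (u4 ▸ u3) hη'.le)

end Lk

theorem G.link : G.LINK := by
  intro n M _ D B η L ψ hB hη hF hc hψ
  have h1 : ContinuousAt (fun ε : ℝ => (G.per B B.U ψ + ε) / (1 - η) / (1 - ε - ε)) 0 :=
    ContinuousAt.div (by fun_prop) (by fun_prop) (by norm_num)
  have h2 := ENNReal.tendsto_ofReal (h1.tendsto.mono_left (nhdsWithin_le_nhds (s := Ioi 0)))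
  simp only [add_zero, sub_zero, div_one] at h2
  refine ge_of_tendsto h2 ?_
  filter_upwards [Ioo_mem_nhdsGT (show (0 : ℝ) < 1 / 2 by norm_num)] with ε hε
  exact Lk.step D hB hη hF hc hψ hε.1 hε.2

end Vale.Agent.P366M
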