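import Vale.Agent.P366Q.G.Scf
import Vale.Agent.P366M.End2
import Vale.Agent.P366Y.G.Nk2

/-!
# P366Q, block G: the conformal factor of a neck is made bounded
-/

open MeasureTheory Metric Filter Topology Set
open scoped ContDiff ENNReal
open Vale.Agent.P366 Vale.Agent.P366.Stmt Vale.Agent.P366Z

noncomputable section

namespace Vale.Agent.P366M.G

namespace Nk2H

open P366Z.Y.Nk2H (th th_eq th_bd)

variable {n : ℕ} {M : Type} [Mf0 n M] {g : Fld n M} {u a : M → ℝ} {x : M}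

theorem th_sm (hu : Smooth u) : Smooth fun x => th (u x) :=
  CD.add hu (CD.mul (Real.smoothTransition.contDiff.compM
    ((CD.mul cd_const hu).sub cd_const)) (CD.sub cd_const hu))

theorem cov_cf (hg : Met g) (h0 : 0 < a x) (w : Fin n → M → ℝ) :
    covNorm (cf a g) w x = a x ^ (-bb n) * covNorm g w x := by
  have e : ∑ i, ∑ j, up (cf a g) i j x * w i x * w j x =
      a x ^ (-(2 * bb n)) * ∑ i, ∑ j, up g i j x * w i x * w j x := by
    simp only [hg.up_cf h0, Finset.mul_sum, mul_assoc]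
  unfold covNorm
  rw [e, Real.sqrt_mul (by positivity), Real.sqrt_eq_rpow, ← Real.rpow_mul h0.le]
  congr 2; ring

end Nk2H

open Nk2H P366Z.Y.Nk2H in
theorem nk2 : NK2 := by
  intro n M _ D m hn h η hη
  obtain ⟨ρ, hρ, h⟩ := h η hη
  refine ⟨ρ, hρ, fun δ hδ => ?_⟩
  obtain ⟨c₀, hc, h⟩ := h δ hδ
  refine ⟨c₀, hc, fun ℓ => ?_⟩
  obtain ⟨g, u, Q, t, β, h⟩ := h ℓ
  obtain ⟨U, hU⟩ : ∃ U : M → ℝ, U = fun x => th (u x) := ⟨_, rfl⟩
  have sU : Smooth U := hU ▸ th_sm h.smu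
  have bU : ∀ x, 1 / 2 ≤ U x ∧ U x ≤ u x ∧ U x ≤ 7 / 4 := fun x => hU ▸ th_bd (h.lo x)
  have eU : ∀ x, ρ / 2 ≤ ‖px x‖ → U x = u x := fun x hx => hU ▸ th_eq (h.hi x hx)
  have U0 : ∀ x, 0 < U x := fun x => by linarith [(bU x).1]
  obtain ⟨a, ha⟩ : ∃ a : M → ℝ, a = fun x => u x / U x := ⟨_, rfl⟩
  have sa : Smooth a := ha ▸ CD.div h.smu sU fun x => (U0 x).ne'
  have a1 : ∀ x, 1 ≤ a x := fun x => ha ▸ (one_le_div (U0 x)).2 (bU x).2.1
  have a0 : ∀ x, 0 < a x := fun x => one_pos.trans_le (a1 x)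
  have aU : ∀ x, a x * U x = u x := fun x => ha ▸ div_mul_cancel₀ _ (U0 x).ne'
  have ea : ∀ x, ρ / 2 ≤ ‖px x‖ → a x = 1 := fun x hx =>
    mul_right_cancel₀ (U0 x).ne' (by rw [aU, one_mul, eU x hx])
  have eg : ∀ x, ρ / 2 ≤ ‖px x‖ → cf a g x = g x := fun x hx => by
    funext i j
    rw [cf, ea x hx, Real.one_rpow, one_mul]
  have ev : ∀ x : M, ρ / 2 < ‖px x‖ → ∀ᶠ y in 𝓝 x, ρ / 2 < ‖px y‖ := fun x hx =>
    ev_lt_px hx
  have lt : ∀ x : M, ρ ≤ ‖px x‖ → ρ / 2 < ‖px x‖ := fun x hx => by linarith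
  have evU : ∀ x : M, ρ / 2 < ‖px x‖ → U =ᶠ[𝓝 x] u := fun x hx =>
    (ev x hx).mono fun y hy => eU y hy.le
  have eQ : ∀ x : M, ρ / 2 < ‖px x‖ → lap (cf a g) U x / U x = Q x := fun x hx => by
    rw [lap_of_ev ((ev x hx).mono fun y hy => eg y hy.le), lap_congr (evU x hx), h.eqn,
      ← eU x hx.le, mul_div_cancel_right₀ _ (U0 x).ne']
  have key : ∀ x, scal (cf a g) x - 4 * gam n * (lap (cf a g) U x / U x) =
      a x ^ (-(2 * bb n)) * (scal g x - 4 * gam n * Q x) := fun x => by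
    have k := h.met.cl_cf hn sa a0 sU x
    rw [funext aU, cl, cl, h.eqn, ← aU, Real.rpow_sub_one (a0 x).ne'] at k
    have := (U0 x).ne'
    have := (a0 x).ne'
    field_simp at k ⊢
    linear_combination k
  refine ⟨cf a g, U, fun x => lap (cf a g) U x / U x, t, β, ⟨h.met.cf sa a0,
    ⟨h.flat.R, fun x hx => (eg x hx).trans (h.flat.eq x hx)⟩, sU, h.smt, fun x => (bU x).1,
    fun x hx => (eU x hx).trans_le (h.hi x hx), fun x => (div_mul_cancel₀ _ (U0 x).ne').symm,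
    fun x hx => (eQ x (lt x hx)).symm ▸ h.Qf x hx, ?_, ?_, h.mass, fun x hx => ?_, h.out,
    fun x h1 h2 => ?_, fun x h1 h2 => ⟨?_, ?_⟩, h.deep, fun x hx ξ => ?_⟩, fun x => (bU x).2.2⟩
  · obtain ⟨C, hC⟩ := h.Qd
    refine ⟨C, fun x hx => ?_⟩
    rw [fd_congr ((ev x (lt x hx)).mono eQ)]
    exact hC x hx
  · obtain ⟨C, R, hC⟩ := h.asy
    refine ⟨C, max R ρ, fun x hx => ?_⟩
    have k := lt x ((le_max_right _ _).trans hx)
    simp only [eU x k.le, pd_congr (evU x k)]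
    exact hC x ((le_max_left _ _).trans hx)
  · rw [key]
    exact mul_pos (Real.rpow_pos_of_pos (a0 x) _) (h.pos x hx)
  · rw [key, ea x h1, Real.one_rpow, one_mul]
    exact h.ann x h1 h2
  · rw [key, h.met.ip_cf (a0 x)]
    exact mul_le_mul_of_nonneg_left (h.nk x h1 h2).1 (Real.rpow_nonneg (a0 x).le _)
  · rw [h.met.gn_cf (a0 x)]
    refine le_trans (mul_le_mul_of_nonneg_left (mul_le_of_le_one_left (gn_nonneg _ _ _)
      (Real.rpow_le_one_of_one_le_of_nonpos (a1 x) (neg_nonpos.2 (bb_pos hn).le))) hc.le)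
      (h.nk x h1 h2).2
  · refine (h.cmp x hx ξ).trans_eq ?_
    have e : a x ^ (2 * gam n) = a x ^ (-bb n) * a x ^ (n * bb n) := by
      rw [← Real.rpow_add (a0 x), ← nm1_bb hn]
      congr 1; ring
    rw [cov_cf h.met (a0 x), dens_cf (a0 x), ← aU, Real.mul_rpow (a0 x).le (U0 x).le, e]
    ring

end Vale.Agent.P366M.G
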