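import Vale.Agent.P366Q.G.Int

/-!
# P366Q, block G: the volume term, near minimisers
-/

open MeasureTheory Metric Filter Topology Set
open scoped ContDiff ENNReal
open Vale.Agent.P366 Vale.Agent.P366.Stmt Vale.Agent.P366Z

noncomputable section

namespace Vale.Agent.P366M.G

variable {n : ℕ} {M : Type} [Mfe n M] {B : Bg n M} {L κ : ℝ} {U m p q ψ u v : M → ℝ}

theorem set_le_int (hB : B.Ok) (hP : Pen B L m p q) (hu : Continuous u) (h0 : ∀ x, 0 ≤ u x)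
    {A : Set M} (hA : MeasurableSet A) (e : ∀ x ∈ A, 1 ≤ m x * u x) :
    ∫⁻ x in A, ENNReal.ofReal (dens B.g x) ≤ ENNReal.ofReal (∫ x, m x * u x * dens B.g x) := by
  rw [ofReal_integral_eq_lintegral_ofReal (Cls.int_vol hB hP hu) (Eventually.of_forall fun x =>
    mul_nonneg (mul_nonneg (hP.m01 x).1 (h0 x)) (dens_nonneg _ _))]
  refine le_trans (setLIntegral_mono' hA fun x hx => ENNReal.ofReal_le_ofReal ?_)
    (setLIntegral_le_lintegral _ _)
  exact le_mul_of_one_le_left (dens_nonneg _ _) (e x hx)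

theorem vol_mono (hB : B.Ok) (hP : Pen B L m p q) (hu : Continuous u) (hv : Continuous v)
    (e : ∀ x, u x ≤ v x) : ∫ x, m x * u x * dens B.g x ≤ ∫ x, m x * v x * dens B.g x :=
  integral_mono (Cls.int_vol hB hP hu) (Cls.int_vol hB hP hv) fun x =>
    mul_le_mul_of_nonneg_right (mul_le_mul_of_nonneg_left (e x) (hP.m01 x).1) (dens_nonneg _ _)

theorem vol_add (hB : B.Ok) (hP : Pen B L m p q) (hu : Continuous u) (hv : Continuous v) :
    ∫ x, m x * (u x + v x) * dens B.g x =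
      (∫ x, m x * u x * dens B.g x) + ∫ x, m x * v x * dens B.g x := by
  rw [← integral_add (Cls.int_vol hB hP hu) (Cls.int_vol hB hP hv)]
  congr 1; funext x; ring

theorem vol_nonneg (hP : Pen B L m p q) (h0 : ∀ x, 0 ≤ u x) : 0 ≤ ∫ x, m x * u x * dens B.g x :=
  integral_nonneg fun x => mul_nonneg (mul_nonneg (hP.m01 x).1 (h0 x)) (dens_nonneg _ _)

theorem vol_le (hB : B.Ok) (hP : Pen B L m p q) (hu : Cls B L u) :
    ∫ x, m x * u x * dens B.g x ≤ ∫ x, m x * dens B.g x := by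
  simpa using vol_mono hB hP hu.lip.cont (v := fun _ => 1) continuous_const fun x => (hu.mem x).2

theorem abs_vol_le (hB : B.Ok) (hP : Pen B L m p q) (hψ : Cls B L ψ) (κ : ℝ) :
    |κ * ∫ x, m x * ψ x * dens B.g x| ≤ |κ| * ∫ x, m x * dens B.g x := by
  rw [abs_mul, abs_of_nonneg (vol_nonneg hP fun x => (hψ.mem x).1)]
  exact mul_le_mul_of_nonneg_left (vol_le hB hP hψ) (abs_nonneg _)

theorem pp_ge (hB : B.Ok) (hP : Pen B L m p q) (hψ : Cls B L ψ) (hU : ∀ x, 0 ≤ U x) (κ : ℝ) :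
    -(|κ| * ∫ x, m x * dens B.g x) ≤ pp B m U κ ψ := by
  have h1 := per_nonneg B ψ hU
  have h2 := (abs_le.1 (abs_vol_le hB hP hψ κ)).1
  unfold pp
  linarith

theorem exists_near (hB : B.Ok) (hP : Pen B L m p q) (hψ : Cls B L ψ) (hU : ∀ x, 0 ≤ U x) (κ : ℝ)
    {η : ℝ} (hη : 0 < η) : ∃ ψ₀, Near B L m U κ η ψ₀ := by
  have hb : BddBelow (pp B m U κ '' {ψ | Cls B L ψ}) :=
    ⟨_, by rintro _ ⟨ψ', h1, rfl⟩; exact pp_ge hB hP h1 hU κ⟩
  obtain ⟨_, ⟨ψ₀, h1, rfl⟩, h2⟩ := Real.lt_sInf_add_pos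
    (s := pp B m U κ '' {ψ | Cls B L ψ}) ⟨_, ψ, hψ, rfl⟩ hη
  exact ⟨ψ₀, h1, fun ψ' h3 => h2.le.trans (by gcongr; exact csInf_le hb ⟨ψ', h3, rfl⟩)⟩

end Vale.Agent.P366M.G
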