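import Vale.Agent.P366M.End2
import Vale.Agent.P366Y.G.Red0

/-!
# P366Q, RED: a regular level and the conformal blow up
-/

open MeasureTheory Metric Filter Topology Set
open scoped ContDiff ENNReal
open Vale.Agent.P366 Vale.Agent.P366.Stmt Vale.Agent.P366Z
open Real (smoothTransition)

noncomputable section

namespace Vale.Agent.P366M.G.RedH

open P366Z.RedH (th th_mem th_zero th_d th_bd ph ph_sm ph_d ph_dd)

variable {n : ℕ} {M : Type} [Mfs n M] {g : Fld n M} {ρ : ℝ} {t U F : M → ℝ} {x : M}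

/-- the field of the calibration -/
def fl (g : Fld n M) (U F : M → ℝ) (i : Fin n) (y : M) : ℝ :=
  U y ^ (2 * gam n) * gr g F i y / gn g F y

theorem fl_eq (g : Fld n M) (U F : M → ℝ) :
    fl g U F = fun i y => U y ^ (2 * gam n) / gn g F y * gr g F i y := by
  funext i y; unfold fl; ring

theorem aa_sm (hg : Met g) (hU : Smooth U) (hl : ∀ x, 1 / 2 ≤ U x) (hF : Smooth F)
    (h : gn g F x ≠ 0) : CAt ∞ (fun y => U y ^ (2 * gam n) / gn g F y) x :=
  (CD.contDiffAt (hU.rpow (fun y => by linarith [hl y]) _)).div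
    ((CD.contDiffAt (hg.sm_ip hF hF)).sqrt fun h0 => h (by rw [gn, h0, Real.sqrt_zero])) h

theorem fl_dv (hg : Met g) (hU : Smooth U) (hl : ∀ x, 1 / 2 ≤ U x) (hF : Smooth F)
    (h : gn g F x ≠ 0) : DV (fl g U F) x := by
  rw [fl_eq]
  exact DV.smul ((aa_sm hg hU hl hF h).differentiableAt (by simp)) (hg.diff_gr (hF.c2 x))

theorem cont_dv (hg : Met g) (hU : Smooth U) (hl : ∀ x, 1 / 2 ≤ U x) (hF : Smooth F)
    (h : gn g F x ≠ 0) : ContinuousAt (dv g (fl g U F)) x := by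
  have h1 := aa_sm hg hU hl hF h
  refine ((h1.continuousAt.mul (hg.sm_lap hF).cont.continuousAt).add (hg.cAt_ip (k := 0)
    (h1.of_le two_le_oo) (hF.c2 x) (by norm_num) (by simp) le_rfl).continuousAt).congr ?_
  filter_upwards [(hg.cont_gn hF.one).continuousAt.eventually_ne h] with y hy
  rw [fl_eq, hg.dv_smul ((aa_sm hg hU hl hF hy).differentiableAt (by simp)) (hg.diff_gr (hF.c2 y)),
    ← lap_eq_dv g (hF.c2 y), ← ip_eq_gr]
  rfl

/-- a collar of the regular level -/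
theorem collar (hg : Met g) (hU : Smooth U) (hl : ∀ x, 1 / 2 ≤ U x) (hF : Smooth F)
    (hρ : ∀ x, ρ ≤ ‖px x‖ → 1 < F x) (hr : ∀ x, F x = 0 → ∃ i, pd i F x ≠ 0) :
    ∃ s₀ > (0 : ℝ), ∃ g₀ > (0 : ℝ), ∃ H₀ ≥ (0 : ℝ), ∀ x, |F x| ≤ s₀ →
      g₀ ≤ gn g F x ∧ dv g (fl g U F) x ≤ H₀ := by
  have cg : Continuous (gn g F) := (hg.sm_ip hF hF).cont.sqrt
  have hA : IsCompact ({x : M | ‖px x‖ ≤ ρ} ∩ {x | gn g F x = 0}) :=
    (isCompact_px M ρ).inter_right (isClosed_eq cg continuous_const)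
  obtain ⟨s₁, h1, h2⟩ := hA.exists_forall_le' (f := fun x => |F x|) hF.cont.abs.continuousOn
    (a := 0) fun x hx => abs_pos.2 fun h0 => by
      obtain ⟨i, hi⟩ := hr x h0
      have h3 : 0 < ip g F F x := hg.up_pos x (ξ := fun i => pd i F x) fun e => hi (congrFun e i)
      exact (Real.sqrt_pos.2 h3).ne' hx.2
  have hK : IsCompact ({x : M | ‖px x‖ ≤ ρ} ∩ {x | |F x| ≤ min (s₁ / 2) 1}) :=
    (isCompact_px M ρ).inter_right (isClosed_le hF.cont.abs continuous_const)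
  have h4 : ∀ x ∈ {x : M | ‖px x‖ ≤ ρ} ∩ {x | |F x| ≤ min (s₁ / 2) 1}, gn g F x ≠ 0 :=
    fun x hx h0 => by
      have h5 := h2 x ⟨hx.1, h0⟩
      have h6 : |F x| ≤ s₁ / 2 := le_trans hx.2 (min_le_left _ _)
      linarith
  obtain ⟨g₀, h5, h6⟩ := hK.exists_forall_le' (f := gn g F) cg.continuousOn (a := 0)
    fun x hx => lt_of_le_of_ne (gn_nonneg _ _ _) (h4 x hx).symm
  obtain ⟨H, hH⟩ := hK.exists_bound_of_continuousOn (f := dv g (fl g U F))
    fun x hx => (cont_dv hg hU hl hF (h4 x hx)).continuousWithinAt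
  refine ⟨min (s₁ / 2) 1, lt_min (by linarith) one_pos, g₀, h5, |H|, abs_nonneg _, fun x hx => ?_⟩
  have h7 : x ∈ {x : M | ‖px x‖ ≤ ρ} ∩ {x | |F x| ≤ min (s₁ / 2) 1} := by
    refine ⟨show ‖px x‖ ≤ ρ from not_lt.1 fun h => ?_, hx⟩
    linarith [hρ x h.le, le_abs_self (F x), min_le_right (s₁ / 2) 1]
  exact ⟨h6 x h7, (le_abs_self _).trans ((hH x h7).trans (le_abs_self _))⟩

/-- the conformal blow up makes the level strictly mean concave -/
theorem blow (hn : 3 ≤ n) (hg : Met g) (hU : Smooth U) (hl : ∀ x, 1 / 2 ≤ U x) (hF : Smooth F)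
    (hρ : ∀ x, ρ ≤ ‖px x‖ → 1 < F x) (hr : ∀ x, F x = 0 → ∃ i, pd i F x ≠ 0) :
    ∃ K ≥ (0 : ℝ), ∀ᶠ s in 𝓝[>] (0 : ℝ), ∃ y : M → ℝ, Smooth y ∧ (∀ x, 1 ≤ y x ∧ y x ≤ 8 / 7) ∧
      (∀ x, 2 * s ≤ F x → y x = 1) ∧ (∀ x, 0 ≤ F x → F x ≤ 2 * s → s * |wl g U y x| ≤ K) ∧
      ∀ x, |F x| ≤ s / 2 → gn g F x ≠ 0 ∧
        dv g (fun i z => (U z * y z) ^ (2 * gam n) * gr g F i z / gn g F z) x ≤ -1 := by
  obtain ⟨s₀, s0, g₀, g0, H₀, H0, hc⟩ := collar hg hU hl hF hρ hr
  obtain ⟨N, M0, hM⟩ := th_bd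
  obtain ⟨A, hA⟩ := (isCompact_px M ρ).exists_bound_of_continuousOn
    (hg.sm_wl hU hF).cont.continuousOn
  obtain ⟨B, hB⟩ := (isCompact_px M ρ).exists_bound_of_continuousOn
    (f := fun x => U x ^ 2 * ip g F F x) ((hU.cont.pow 2).mul (hg.sm_ip hF hF).cont).continuousOn
  obtain ⟨H, hH⟩ : ∃ H, H = 16 * (2 * H₀ + 1) / g₀ := ⟨_, rfl⟩
  have H1 : 0 < H := by rw [hH]; positivity
  have H2 : H * g₀ = 16 * (2 * H₀ + 1) := by rw [hH]; field_simp
  refine ⟨H * N * (|A| + |B|), by positivity, ?_⟩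
  filter_upwards [ev_small H (t := 1 / 21) (by norm_num), ev_small 1 (t := 1 / 2) (by norm_num),
    ev_small 1 s0, self_mem_nhdsWithin] with s k1 k2 k3 k4
  have hs : 0 < s := k4
  have y1 : ∀ z, 1 ≤ ph H s z ∧ ph H s z ≤ 8 / 7 := fun z => by
    have := th_mem (z / s)
    have h5 : 0 < s * H := by positivity
    unfold ph
    constructor <;> nlinarith
  have sy : Smooth fun x => ph H s (F x) := (ph_sm H s).compM hF
  refine ⟨fun x => ph H s (F x), sy, fun x => y1 _, fun x hx => ?_, fun x h1 h2 => ?_,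
    fun x hx => ?_⟩
  · simp only [ph]
    rw [th_zero ((le_div_iff₀ hs).2 hx), mul_zero, add_zero]
  · have hx : ‖px x‖ ≤ ρ := not_lt.1 fun h => by linarith [hρ x h.le]
    obtain ⟨m1, m2⟩ := hM (F x / s) ⟨by positivity, (div_le_iff₀ hs).2 h2⟩
    have a1 : |wl g U F x| ≤ |A| := (hA x hx).trans (le_abs_self _)
    have a2 : |U x ^ 2 * ip g F F x| ≤ |B| := (hB x hx).trans (le_abs_self _)
    rw [hg.wl_comp (hU.diff x) (hF.c2 x) ((ph_sm H s).contDiffAt.of_le (by norm_cast)),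
      (ph_d hs H _).deriv, ph_dd hs, ← abs_of_pos hs, ← abs_mul, abs_of_pos hs]
    have e : s * (H * deriv th (F x / s) * wl g U F x +
        H / s * deriv (deriv th) (F x / s) * (U x ^ 2 * ip g F F x)) =
        H * (s * (deriv th (F x / s) * wl g U F x) +
          deriv (deriv th) (F x / s) * (U x ^ 2 * ip g F F x)) := by field_simp
    rw [e, abs_mul, abs_of_pos H1, mul_assoc H]
    refine mul_le_mul_of_nonneg_left ((abs_add_le _ _).trans ?_) H1.le
    rw [abs_mul, abs_mul, abs_mul (deriv (deriv th) _), abs_of_pos hs]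
    have b1 := mul_le_mul m1 a1 (abs_nonneg _) M0
    have b2 := mul_le_mul m2 a2 (abs_nonneg _) M0
    have b3 : s * (|deriv th (F x / s)| * |wl g U F x|) ≤ 1 * (N * |A|) :=
      mul_le_mul (by linarith) b1 (by positivity) zero_le_one
    linarith
  · obtain ⟨c1, c2⟩ := hc x (by linarith)
    have c0 : gn g F x ≠ 0 := by linarith
    refine ⟨c0, ?_⟩
    have y0 : ∀ z, 0 < ph H s (F z) := fun z => by linarith [(y1 (F z)).1]
    have e : (fun i z => (U z * ph H s (F z)) ^ (2 * gam n) * gr g F i z / gn g F z) =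
        fun i z => ph H s (F z) ^ (2 * gam n) * fl g U F i z := by
      funext i z
      rw [fl, Real.mul_rpow (by linarith [hl z]) (y0 z).le]; ring
    have d1 : ∀ i, pd i (fun z => ph H s (F z) ^ (2 * gam n)) x =
        2 * gam n * ph H s (F x) ^ (2 * gam n - 1) * (H * deriv th (F x / s)) * pd i F x :=
      fun i => by
        rw [pd_rpow (sy.diff x) (y0 x).ne', pd_comp (ph_d hs H _) (hF.diff x)]; ring
    have d2 : ∑ i, pd i F x * fl g U F i x = U x ^ (2 * gam n) * gn g F x := by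
      have : ∑ i, pd i F x * fl g U F i x = U x ^ (2 * gam n) * ip g F F x / gn g F x := by
        rw [ip_eq_gr, Finset.mul_sum, Finset.sum_div]
        exact Finset.sum_congr rfl fun i _ => by rw [fl]; ring
      rw [this, ← hg.gn_sq]; field_simp
    rw [e, hg.dv_smul ((sy.rpow y0 _).diff x) (fl_dv hg hU hl hF c0)]
    simp only [d1, mul_assoc _ (pd _ F x), ← Finset.mul_sum, d2]
    have g1 := one_lt_gam hn
    have g2 := gam_le hn
    have p1 : ph H s (F x) ^ (2 * gam n) ≤ 2 := by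
      calc ph H s (F x) ^ (2 * gam n) ≤ ph H s (F x) ^ ((4 : ℕ) : ℝ) :=
            Real.rpow_le_rpow_of_exponent_le (y1 _).1 (by push_cast; linarith)
        _ = ph H s (F x) ^ 4 := Real.rpow_natCast _ _
        _ ≤ (8 / 7) ^ 4 := pow_le_pow_left₀ (y0 x).le (y1 _).2 4
        _ ≤ 2 := by norm_num
    have p0 : 0 ≤ ph H s (F x) ^ (2 * gam n) := Real.rpow_nonneg (y0 x).le _
    have p2 : 1 ≤ ph H s (F x) ^ (2 * gam n - 1) := Real.one_le_rpow (y1 _).1 (by linarith)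
    have p3 : 1 / 16 ≤ U x ^ (2 * gam n) := by
      calc (1 / 16 : ℝ) = (1 / 2) ^ ((4 : ℕ) : ℝ) := by rw [Real.rpow_natCast]; norm_num
        _ ≤ (1 / 2) ^ (2 * gam n) :=
            Real.rpow_le_rpow_of_exponent_ge (by norm_num) (by norm_num) (by push_cast; linarith)
        _ ≤ U x ^ (2 * gam n) := Real.rpow_le_rpow (by norm_num) (hl x) (by linarith)
    have p4 : deriv th (F x / s) ≤ -(1 / 2) :=
      th_d (by rw [abs_div, abs_of_pos hs, div_le_iff₀ hs]; linarith)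
    have q1 : ph H s (F x) ^ (2 * gam n) * dv g (fl g U F) x ≤ 2 * H₀ :=
      (mul_le_mul_of_nonneg_left c2 p0).trans (mul_le_mul_of_nonneg_right p1 H0)
    have q2 : 2 * 1 ≤ 2 * gam n * ph H s (F x) ^ (2 * gam n - 1) :=
      mul_le_mul (by linarith) p2 zero_le_one (by linarith)
    have q3 : 1 / 16 * g₀ ≤ U x ^ (2 * gam n) * gn g F x :=
      mul_le_mul p3 c1 g0.le (by linarith)
    have q4 : H * (1 / 2) ≤ H * -deriv th (F x / s) :=
      mul_le_mul_of_nonneg_left (by linarith) H1.le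
    have q5 := mul_le_mul (mul_le_mul q2 q4 (by positivity) (by linarith)) q3 (by positivity)
      (mul_nonneg (by linarith) (by linarith [mul_pos H1 (by norm_num : (0 : ℝ) < 1 / 2)]))
    nlinarith

end Vale.Agent.P366M.G.RedH
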