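import Vale.Agent.P366Q.G.Top
import Vale.Agent.P366Q.G.Link
import Vale.Agent.P366Q.G.Nk2
import Vale.Agent.P366Q.G.Red

/-!
# P366Q, block G: the inequality for a neck follows from the flow
-/

namespace Vale.Agent.P366M.G

/-- block G from the flow -/
theorem rps_of_flow (hF : FLOW) : RPS := rps_of link hF nk2 red

end Vale.Agent.P366M.G
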