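import Vale.Agent.P366Q.G.Defs

/-!
# P366Q, block G: the statements of the rows, on a manifold
-/

open MeasureTheory Metric Filter Topology Set
open scoped ContDiff ENNReal
open Vale.Agent.P366 Vale.Agent.P366.Stmt Vale.Agent.P366Z

noncomputable section

namespace Vale.Agent.P366M.G

/-- **STWT**: the states are weights -/
def STWT : Prop := ∀ (n : ℕ) (M : Type) [Mfe n M] (B : Bg n M) U a β R s', B.Ok →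
  St B U a β R s' → Wt B.g U

/-- the hypotheses of the confinement in the ball of radius `r` -/
structure Cf {n : ℕ} {M : Type} [Mfe n M] (B : Bg n M) (L : ℝ) (U : M → ℝ)
    (a κ C c r : ℝ) : Prop where
  rL : r ≤ L
  ρr : B.ρ ≤ c * r
  up : ∀ x, r / 2 ≤ ‖px x‖ → U x ≤ C * a
  per : ∃ ψ, Cls B L ψ ∧ per B U ψ ≤ c * a ^ (2 * gam n) * r ^ (n - 1 : ℝ)
  kap : |κ| * ((L + 1) ^ n + ∫ x in bl M (L + 1), dens B.g x) ≤ c * a ^ (2 * gam n)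

/-- **STAB**: a small mass forces `v` to be almost constant -/
def STAB : Prop := ∀ (n : ℕ) (C₀ δ η : ℝ), 3 ≤ n → 0 < δ → 0 < η → ∃ e > (0 : ℝ),
  ∀ (M : Type) [Mfe n M] (v : M → ℝ) (a β R S : ℝ), R0 M + 1 ≤ R → 0 < a → Smooth v → S ≤ e * a →
    (∀ x, R ≤ ‖px x‖ → a / 8 ≤ v x ∧ v x ≤ C₀ * a ∧
      |lap (eu n) v x| ≤ S * ‖px x‖ ^ (-(n + 2) : ℝ)) →
    Asy v a β → Par v R (e * a ^ (-bb n) * R ^ (n - 2 : ℝ)) →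
    ∀ x, (1 + δ) * R ≤ ‖px x‖ → |v x - a| ≤ η * a

/-- the set `{ψ = 0}` is fat near a point of norm almost `R₁` -/
def Tip {n : ℕ} {M : Type} [Mfe n M] (B : Bg n M) (U : M → ℝ) (a C₀ c K D η : ℝ)
    (ψ : M → ℝ) (R₁ : ℝ) : Prop :=
  ∀ r, 2 * B.ρ ≤ r → r ≤ R₁ → K * D ≤ a ^ bb n * r → (∀ x, r / 2 ≤ ‖px x‖ → U x ≤ C₀ * a) →
    ∃ x₀ : E n, R₁ - K * D * a ^ (-bb n) / 4 ≤ ‖x₀‖ ∧ ‖x₀‖ ≤ R₁ ∧
      Fat {y | fe ψ y = 0} c x₀ η (‖x₀‖ / 4)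

/-- **ONE**: one step -/
def ONE : Prop := ∀ (n : ℕ) (M : Type) [Mfe n M] (C' : ℝ), ∃ c' > (0 : ℝ), c' ≤ 1 / 8 ∧ ∃ C > (0 : ℝ), ∀ C₀ : ℝ,
  ∃ c > (0 : ℝ), ∃ K > (0 : ℝ), ∀ (B : Bg n M) (L a₀ δ₀ D : ℝ) m p q, B.Ok → Pen B L m p q →
    0 < a₀ → δ₀ ∈ Ioo (0 : ℝ) 1 → 0 < D → Sm B a₀ δ₀ → ∃ κ₀ > (0 : ℝ), ∀ U a β R s',
      St B U a β R s' → a₀ ≤ a →
      ∀ κ ∈ Ico (-κ₀) 0, ∀ r, Cf B L U a κ C' c' r → 2 * D ≤ c' * a ^ bb n * r →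
        ∀ η' > (0 : ℝ), ∀ ρ' ∈ Ioo 0 (B.s / 8), ∀ η > (0 : ℝ), ∃ ψ h βh R₁,
          Out B L m U a β s' κ δ₀ η' ρ' η C ψ h βh R₁ ∧ R₁ ≤ r ∧ Tip B U a C₀ c K D η ψ R₁

/-- **FC**: the truncation and the penalties exist -/
def FC : Prop := (∀ η' > (0 : ℝ), ∃ η'' f, Fc η' η'' f) ∧
  ∀ (n : ℕ) (M : Type) [Mfe n M] (B : Bg n M) (L : ℝ), B.Ok → 2 * B.ρ ≤ L → ∃ m p q, Pen B L m p q

/-- **UPD**: the new state -/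
def UPD : Prop := ∀ (n : ℕ) (M : Type) [Mfe n M] (B : Bg n M) L m U a β R s' κ δ₀ η' ρ' η C ψ h βh R₁ η'' f (τ R' : ℝ),
  B.Ok → St B U a β R s' → Out B L m U a β s' κ δ₀ η' ρ' η C ψ h βh R₁ → Fc η' η'' f → 0 < η' →
  2 * η' < 1 → τ ∈ Ioc (0 : ℝ) (1 / 2) → 0 ≤ ρ' → B.s / 2 ≤ s' - ρ' → R ≤ R' → R₁ ≤ R' →
  (∀ x, R' ≤ ‖px x‖ → 2 * η' ≤ h x) → St B (fun x => U x * (1 - τ * f (h x))) (a * (1 - τ * (1 - η'')))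
    (β * (1 + τ * η'') - τ * βh) R' (s' - ρ')

/-- **HLOW**: the lower bound of the potential -/
def HLOW : Prop := ∀ (n : ℕ) (M : Type) [Mfe n M] (B : Bg n M) L m U a β R s' κ δ₀ η' ρ' η C ψ h βh R₁ (R' : ℝ),
  B.Ok → St B U a β R s' → Out B L m U a β s' κ δ₀ η' ρ' η C ψ h βh R₁ → R₁ ≤ R' →
  ∀ x, R' ≤ ‖px x‖ → a * (1 - (R' / ‖px x‖) ^ (n - 2 : ℝ)) ≤ h x * U x

/-- **NEST**: the near minimisers are almost nested -/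
def NEST : Prop := ∀ (n : ℕ) (M : Type) [Mfe n M] (B : Bg n M) L m p q U U' (κ κ' η : ℝ) ψ ψ', B.Ok → Pen B L m p q →
  Continuous U → Continuous U' → (∀ x, 0 < U x ∧ 0 < U' x) → (∀ x, ψ x < 1 → U' x = U x) →
  Near B L m U κ η ψ → Near B L m U' κ' η ψ' →
  (κ' - κ) * ∫ x, m x * max (ψ' x - ψ x) 0 * dens B.g x ≤ 2 * η

/-- **AREA**: the loss of area in one step -/
def AREA : Prop := ∀ (n : ℕ) (M : Type) [Mfe n M], ∃ C > (0 : ℝ), ∀ (B : Bg n M) L m p q U a β R s' h η' η'' f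
  (τ κ η e V : ℝ) ψ, B.Ok → Pen B L m p q → St B U a β R s' → Smooth h → (∀ x, 0 < h x ∧ h x ≤ 1) →
  (∀ x, B.F x ≤ B.s / 4 → h x ≤ η') → Fc η' η'' f → 0 < η' → τ ∈ Ioc (0 : ℝ) (1 / 2) →
  0 ≤ η → 0 ≤ e → 0 ≤ V → Near B L m (fun x => U x * (1 - τ * f (h x))) κ η ψ →
  ∫⁻ x, ENNReal.ofReal (U x ^ 2 * ip B.g h h x * dens B.g x) ≤ ENNReal.ofReal e →
  ∫⁻ x in {x | η' < h x ∧ ψ x < 1}, ENNReal.ofReal (dens B.g x) ≤ ENNReal.ofReal V →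
  per B U ψ ≤ per B (fun x => U x * (1 - τ * f (h x))) ψ +
    C * τ * (√(e * V) + η + |κ| * ∫ x, m x * dens B.g x)

/-- **RAMP**: the perimeter of a sphere -/
def RAMP : Prop := ∀ (n : ℕ) (M : Type) [Mfe n M] (B : Bg n M) (U : M → ℝ) (L r A η : ℝ), B.Ok → Continuous U →
  B.ρ ≤ r → r < L → 0 < η → (∀ x, r ≤ ‖px x‖ → 0 ≤ U x ∧ U x ≤ A) →
  ∃ ψ, Cls B L ψ ∧ per B U ψ ≤ omega n * r ^ (n - 1 : ℝ) * A ^ (2 * gam n) + η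

/-- **FLOW**: the inequality for the background -/
def FLOW : Prop := ∀ (n : ℕ) (M : Type) [Mfe n M] (μ η ρ : ℝ), 0 < μ → 0 < η → ∃ δ > (0 : ℝ), ∀ (B : Bg n M) (β : ℝ),
  B.Ok → B.ρ ≤ ρ → B.δ ≤ δ → Asy B.U 1 β → 2 * β ≤ μ →
  0 ≤ β ∧ ∃ L ψ, Cls B L ψ ∧ per B B.U ψ ≤ (1 + η) * omega n * (2 * μ) ^ gam n

/-- **LINK** -/
def LINK : Prop := ∀ (n : ℕ) (M : Type) [Mfe n M] (D : Exterior n M) (B : Bg n M) (η L : ℝ) (ψ : M → ℝ), B.Ok →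
  η < 1 → (∀ x, D.F x ≤ 0 → B.F x ≤ 0) → (∀ x, 0 ≤ D.F x → ∀ ξ : Fin n → ℝ,
    (1 - η) * (dens D.g x * covNorm D.g (fun i _ => ξ i) x) ≤
      B.U x ^ (2 * gam n) * covNorm B.g (fun i _ => ξ i) x * dens B.g x) → Cls B L ψ →
  D.Amin ≤ ENNReal.ofReal (per B B.U ψ / (1 - η))

/-- **SCF**: the conformal change of the conformal Laplacian -/
def SCF : Prop := ∀ (n : ℕ) (M : Type) [Mfe n M] (g : Fld n M) (a v : M → ℝ) (x : M), 3 ≤ n → Met g → Smooth a →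
  (∀ y, 0 < a y) → Smooth v →
  cl (cf a g) v x = a x ^ (-(2 * bb n) - 1) * cl g (fun y => a y * v y) x

/-- **NK2**: the factor is made bounded -/
def NK2 : Prop := ∀ (n : ℕ) (M : Type) [Mfe n M] (D : Exterior n M) (m : ℝ), 3 ≤ n → Neck D m → Neck2 D m

/-- **RED**: from a neck to a background -/
def RED : Prop := ∀ (n : ℕ) (M : Type) [Mfe n M] (D : Exterior n M) (m : ℝ), 3 ≤ n → Neck2 D m → Red D m

/-- **the output of block G** -/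
def RPS : Prop := ∀ (n : ℕ) (M : Type) [Mfe n M] (D : Exterior n M) (m : ℝ), 3 ≤ n → Neck D m →
  D.Amin ≠ ⊤ ∧ (D.Amin.toReal / omega n) ^ (((n : ℝ) - 2) / (n - 1)) / 2 ≤ m

end Vale.Agent.P366M.G
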