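import Vale.Agent.P366Q.G.Sk
import Vale.Agent.P366Z.Int

/-!
# P366Q, block G: the inequality from a reduction to backgrounds
-/

open MeasureTheory Metric Filter Topology Set
open scoped ContDiff ENNReal
open Vale.Agent.P366 Vale.Agent.P366.Stmt Vale.Agent.P366Z

noncomputable section

namespace Vale.Agent.P366M.G

theorem pen_of (hL : LINK) (hF : FLOW) {n : ℕ} {M : Type} [Mfe n M] {D : Exterior n M} {m : ℝ}
    (hn : 3 ≤ n) (h0 : Red D m) : D.Amin ≠ ⊤ ∧
      (D.Amin.toReal / omega n) ^ (((n : ℝ) - 2) / (n - 1)) / 2 ≤ m := by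
  have hω := omega_pos (n := n) (by omega)
  have hγ := one_lt_gam hn
  have key : ∀ η : ℝ, 0 < η → η < 1 → 0 ≤ m + η ∧
      D.Amin ≤ ENNReal.ofReal ((1 + η) * omega n * (2 * (m + 2 * η)) ^ gam n / (1 - η)) := by
    intro η η0 η1
    obtain ⟨ρ, h1⟩ := h0 η η0
    have pos : 0 ≤ m + η := by
      obtain ⟨δ, δ0, h2⟩ := hF n M (|m + η| + 1) η ρ (by positivity) η0
      obtain ⟨B, β, hB, b1, b2, b3, b4, -⟩ := h1 δ δ0
      linarith [(h2 B β hB b1 b2 b3 (by linarith [le_abs_self (m + η)])).1]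
    obtain ⟨δ, δ0, h2⟩ := hF n M (m + 2 * η) η ρ (by linarith) η0
    obtain ⟨B, β, hB, b1, b2, b3, b4, b5, b6⟩ := h1 δ δ0
    obtain ⟨-, L, ψ, hψ, h3⟩ := h2 B β hB b1 b2 b3 (by linarith)
    refine ⟨pos, (hL n M D B η L ψ hB η1 b5 b6 hψ).trans (ENNReal.ofReal_le_ofReal ?_)⟩
    exact div_le_div_of_nonneg_right h3 (by linarith)
  have ev : ∀ᶠ η in 𝓝[>] (0 : ℝ), 0 < η ∧ η < 1 :=
    Filter.Eventually.and self_mem_nhdsWithin
      (Filter.Eventually.filter_mono nhdsWithin_le_nhds (gt_mem_nhds one_pos))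
  have m0 : 0 ≤ m := by
    have : Tendsto (fun η : ℝ => m + η) (𝓝[>] 0) (𝓝 (m + 0)) :=
      (tendsto_const_nhds.add tendsto_id).mono_left nhdsWithin_le_nhds
    rw [add_zero] at this
    exact ge_of_tendsto this (ev.mono fun η hη => (key η hη.1 hη.2).1)
  have fin : D.Amin ≠ ⊤ :=
    ne_top_of_le_ne_top ENNReal.ofReal_ne_top (key (1 / 2) (by norm_num) (by norm_num)).2
  refine ⟨fin, ?_⟩
  have lim : Tendsto (fun η : ℝ => (1 + η) * omega n * (2 * (m + 2 * η)) ^ gam n / (1 - η))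
      (𝓝[>] 0) (𝓝 ((1 + 0) * omega n * (2 * (m + 2 * 0)) ^ gam n / (1 - 0))) := by
    refine Tendsto.mono_left (ContinuousAt.tendsto ?_) nhdsWithin_le_nhds
    refine ContinuousAt.div (ContinuousAt.mul (by fun_prop)
      (ContinuousAt.rpow_const (by fun_prop) (Or.inr (by linarith)))) (by fun_prop) (by norm_num)
  have A : D.Amin.toReal ≤ omega n * (2 * m) ^ gam n := by
    have := ge_of_tendsto lim (ev.mono fun η hη => by
      refine ENNReal.toReal_le_of_le_ofReal ?_ (key η hη.1 hη.2).2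
      have h1 := hη.1
      have h2 : 0 < 1 - η := by linarith [hη.2]
      positivity)
    simpa using this
  have h1 : D.Amin.toReal / omega n ≤ (2 * m) ^ gam n := by
    rw [div_le_iff₀ hω, mul_comm]; exact A
  have h2 : (0 : ℝ) < n - 2 := nm2_pos hn
  have h3 : (0 : ℝ) < n - 1 := by linarith
  have h4 := Real.rpow_le_rpow (by positivity) h1 (div_pos h2 h3).le
  rw [← Real.rpow_mul (by positivity), show gam n * (((n : ℝ) - 2) / (n - 1)) = 1 by
    unfold gam; field_simp, Real.rpow_one] at h4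
  linarith

/-- the inequality from the flow and the reductions -/
theorem rps_of (hL : LINK) (hF : FLOW) (h1 : NK2) (h2 : RED) : RPS := fun n M _ D m hn h =>
  pen_of hL hF hn (h2 n M D m hn (h1 n M D m hn h))

end Vale.Agent.P366M.G
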